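import Vale.Agent.P328.H350.Rows

/-!
# Spectral gap and mixing time of the `2 × 2` heat-bath chain on mixed tables (helper350)
-/

set_option linter.all false

namespace Vale.Agent.P328.H350

open Finset Matrix Vale.Agent.P328

section Tables

variable {m n : ℕ} (B : Finset (Fin m)) (r : Fin m → ℕ) (c : Fin n → ℕ)

/-- Dirichlet form of one box -/
noncomputable def boxFormB (F : OmegaB B r c → ℝ) (q : Fin m × Fin m × Fin n × Fin n) : ℝ :=
  ∑ x, (F x - avg (boxSB B r c q.1 q.2.1 q.2.2.1 q.2.2.2) F x) ^ 2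

theorem boxFormB_nonneg (F : OmegaB B r c → ℝ) (q : Fin m × Fin m × Fin n × Fin n) :
    0 ≤ boxFormB B r c F q := Finset.sum_nonneg fun _ _ => sq_nonneg _

theorem boxSB_swap_rows (i i' : Fin m) (j k : Fin n) :
    boxSB B r c i i' j k = boxSB B r c i' i j k := by
  ext x y
  constructor <;>
  · intro h a b hab
    exact h a b (fun hc => hab ⟨hc.1.symm, hc.2⟩)

theorem boxSB_swap_cols (i i' : Fin m) (j k : Fin n) :
    boxSB B r c i i' j k = boxSB B r c i i' k j := by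
  ext x y
  constructor <;>
  · intro h a b hab
    exact h a b (fun hc => hab ⟨hc.1, hc.2.symm⟩)

/-- the chain that resamples a uniformly random `2 × 2` minor (rows `i, i'`, columns `j, k`
chosen independently and uniformly) -/
noncomputable def chainB : Matrix (OmegaB B r c) (OmegaB B r c) ℝ :=
  mixKer fun q : Fin m × Fin m × Fin n × Fin n => boxSB B r c q.1 q.2.1 q.2.2.1 q.2.2.2

theorem four_variance_leB (F : OmegaB B r c → ℝ) :
    4 * ∑ x, (F x - avg ⊤ F x) ^ 2 ≤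
      ∑ q : Fin m × Fin m × Fin n × Fin n, boxFormB B r c F q := by
  have h := variance_boxB B r c F
  have h1 : ∑ p : {p : Fin n × Fin n // p.1 < p.2}, ∑ q : {q : Fin m × Fin m // q.1 < q.2},
        ∑ x, (F x - avg (boxSB B r c q.1.1 q.1.2 p.1.1 p.1.2) F x) ^ 2 =
      ∑ p ∈ incPairs (Fin n), ∑ q ∈ incPairs (Fin m), boxFormB B r c F (q.1, q.2, p.1, p.2) := by
    rw [← sum_incPairs]
    refine Finset.sum_congr rfl fun p _ => ?_
    rw [← sum_incPairs]
    rfl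
  rw [h1] at h
  -- symmetrize in the rows
  have hrow : ∀ p : Fin n × Fin n, 2 * ∑ q ∈ incPairs (Fin m), boxFormB B r c F (q.1, q.2, p.1, p.2) ≤
      ∑ q : Fin m × Fin m, boxFormB B r c F (q.1, q.2, p.1, p.2) := by
    intro p
    have hs : ∑ q ∈ univ.filter (fun q : Fin m × Fin m => q.2 < q.1),
        boxFormB B r c F (q.1, q.2, p.1, p.2) =
        ∑ q ∈ incPairs (Fin m), boxFormB B r c F (q.1, q.2, p.1, p.2) := by
      unfold incPairs
      refine Finset.sum_bij' (fun q _ => (q.2, q.1)) (fun q _ => (q.2, q.1)) ?_ ?_ ?_ ?_ ?_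
      · intro q hq; simpa using hq
      · intro q hq; simpa using hq
      · intro q _; rfl
      · intro q _; rfl
      · intro q _
        unfold boxFormB
        simp only
        rw [boxSB_swap_rows]
    have hd : Disjoint (incPairs (Fin m)) (univ.filter (fun q : Fin m × Fin m => q.2 < q.1)) := by
      rw [Finset.disjoint_left]
      intro q hq hq'
      simp only [incPairs, Finset.mem_filter, Finset.mem_univ, true_and] at hq hq'
      exact lt_asymm hq hq'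
    calc 2 * ∑ q ∈ incPairs (Fin m), boxFormB B r c F (q.1, q.2, p.1, p.2)
        = ∑ q ∈ (incPairs (Fin m)).disjUnion _ hd, boxFormB B r c F (q.1, q.2, p.1, p.2) := by
          rw [Finset.sum_disjUnion, hs]; ring
      _ ≤ _ := Finset.sum_le_sum_of_subset_of_nonneg (Finset.subset_univ _)
          fun q _ _ => boxFormB_nonneg B r c F _
  have hcol : 2 * ∑ p ∈ incPairs (Fin n), ∑ q : Fin m × Fin m, boxFormB B r c F (q.1, q.2, p.1, p.2) ≤
      ∑ p : Fin n × Fin n, ∑ q : Fin m × Fin m, boxFormB B r c F (q.1, q.2, p.1, p.2) := by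
    have hs : ∑ p ∈ univ.filter (fun p : Fin n × Fin n => p.2 < p.1),
        ∑ q : Fin m × Fin m, boxFormB B r c F (q.1, q.2, p.1, p.2) =
        ∑ p ∈ incPairs (Fin n), ∑ q : Fin m × Fin m, boxFormB B r c F (q.1, q.2, p.1, p.2) := by
      unfold incPairs
      refine Finset.sum_bij' (fun q _ => (q.2, q.1)) (fun q _ => (q.2, q.1)) ?_ ?_ ?_ ?_ ?_
      · intro q hq; simpa using hq
      · intro q hq; simpa using hq
      · intro q _; rfl
      · intro q _; rfl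
      · intro p _
        refine Finset.sum_congr rfl fun q _ => ?_
        unfold boxFormB
        simp only
        rw [boxSB_swap_cols]
    have hd : Disjoint (incPairs (Fin n)) (univ.filter (fun q : Fin n × Fin n => q.2 < q.1)) := by
      rw [Finset.disjoint_left]
      intro q hq hq'
      simp only [incPairs, Finset.mem_filter, Finset.mem_univ, true_and] at hq hq'
      exact lt_asymm hq hq'
    calc 2 * ∑ p ∈ incPairs (Fin n), ∑ q : Fin m × Fin m, boxFormB B r c F (q.1, q.2, p.1, p.2)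
        = ∑ p ∈ (incPairs (Fin n)).disjUnion _ hd,
            ∑ q : Fin m × Fin m, boxFormB B r c F (q.1, q.2, p.1, p.2) := by
          rw [Finset.sum_disjUnion, hs]; ring
      _ ≤ _ := Finset.sum_le_sum_of_subset_of_nonneg (Finset.subset_univ _)
          fun p _ _ => Finset.sum_nonneg fun q _ => boxFormB_nonneg B r c F _
  have htot : ∑ q : Fin m × Fin m × Fin n × Fin n, boxFormB B r c F q =
      ∑ p : Fin n × Fin n, ∑ q : Fin m × Fin m, boxFormB B r c F (q.1, q.2, p.1, p.2) := by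
    rw [Finset.sum_comm]
    simp only [Fintype.sum_prod_type]
  rw [htot]
  have h2 : 2 * ∑ p ∈ incPairs (Fin n), ∑ q ∈ incPairs (Fin m), boxFormB B r c F (q.1, q.2, p.1, p.2) ≤
      ∑ p ∈ incPairs (Fin n), ∑ q : Fin m × Fin m, boxFormB B r c F (q.1, q.2, p.1, p.2) := by
    rw [Finset.mul_sum]
    exact Finset.sum_le_sum fun p _ => hrow p
  linarith


/-- **Rapid mixing for all margins.** -/
theorem tv_chain_leB (hm : 2 ≤ m) (hn : 2 ≤ n) (X : OmegaB B r c) (t : ℕ) :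
    tv (fun Y => ((chainB B r c) ^ t) X Y) (fun _ => (1 : ℝ) / Fintype.card (OmegaB B r c)) ≤
      (1 / 2) * (Real.sqrt (Fintype.card (OmegaB B r c)) *
        (1 - 4 / ((m : ℝ) ^ 2 * (n : ℝ) ^ 2)) ^ t) := by
  have : Nonempty (Fin m) := ⟨⟨0, by omega⟩⟩
  have : Nonempty (Fin n) := ⟨⟨0, by omega⟩⟩
  have : Nonempty (OmegaB B r c) := ⟨X⟩
  have hγ : (4 : ℝ) ≤ (m : ℝ) ^ 2 * (n : ℝ) ^ 2 := by
    have h1 : (2 : ℝ) ≤ m := by exact_mod_cast hm
    have h2 : (2 : ℝ) ≤ n := by exact_mod_cast hn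
    have h3 : (2 : ℝ) ^ 2 ≤ (m : ℝ) ^ 2 := by gcongr
    have h4 : (2 : ℝ) ^ 2 ≤ (n : ℝ) ^ 2 := by gcongr
    nlinarith
  have hcard : (Fintype.card (Fin m × Fin m × Fin n × Fin n) : ℝ) =
      (m : ℝ) ^ 2 * (n : ℝ) ^ 2 := by
    simp [Fintype.card_prod]; ring
  have h := tv_mixKer_pow_le (fun q : Fin m × Fin m × Fin n × Fin n =>
    boxSB B r c q.1 q.2.1 q.2.2.1 q.2.2.2) (c := 4) (by rw [hcard]; exact hγ) ?_ X t
  · rw [hcard] at h
    exact h
  · intro F hF
    have h1 := four_variance_leB B r c F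
    have h2 : ∑ x, (F x - avg ⊤ F x) ^ 2 = ∑ x, F x ^ 2 :=
      Finset.sum_congr rfl fun x _ => by rw [avg_top_eq_zero F hF x, sub_zero]
    rw [h2] at h1
    have h3 : ∑ i : Fin m × Fin m × Fin n × Fin n, ∑ x,
        (F x - ((avgKer (boxSB B r c i.1 i.2.1 i.2.2.1 i.2.2.2)).mulVec F) x) ^ 2 =
        ∑ q : Fin m × Fin m × Fin n × Fin n, boxFormB B r c F q := by
      refine Finset.sum_congr rfl fun q _ => Finset.sum_congr rfl fun x _ => ?_
      rw [avg_eq_avgKer]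
    rw [h3]
    exact h1

open scoped Classical in
theorem box_entryB (i i' : Fin m) (j k : Fin n) (X Y : OmegaB B r c) :
    avgKer (boxSB B r c i i' j k) X Y =
      if RM.SameOff i i' j k X.1 Y.1 then
        1 / (Nat.card {Z : OmegaB B r c // RM.SameOff i i' j k X.1 Z.1} : ℝ) else 0 := by
  have hcard : (Nat.card {Z : OmegaB B r c // RM.SameOff i i' j k X.1 Z.1} : ℝ) =
      ((cls (boxSB B r c i i' j k) X).card : ℝ) := by
    rw [Nat.card_eq_fintype_card, Fintype.card_subtype]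
    unfold cls
    congr
  have hmem : RM.SameOff i i' j k X.1 Y.1 ↔ Y ∈ cls (boxSB B r c i i' j k) X := by
    rw [mem_cls]; rfl
  unfold avgKer
  rw [hcard]
  by_cases hs : RM.SameOff i i' j k X.1 Y.1
  · rw [if_pos hs, if_pos (hmem.1 hs)]
  · rw [if_neg hs, if_neg (fun h => hs (hmem.2 h))]

theorem stepB_eq : stepB B r c = chainB B r c := by
  classical
  funext X Y
  unfold stepB chainB mixKer
  have hc : (Fintype.card (Fin m × Fin m × Fin n × Fin n) : ℝ) = (m : ℝ) ^ 2 * (n : ℝ) ^ 2 := by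
    simp [Fintype.card_prod]; ring
  rw [hc]
  congr 1
  simp only [Fintype.sum_prod_type]
  refine Finset.sum_congr rfl fun i _ => Finset.sum_congr rfl fun i' _ =>
    Finset.sum_congr rfl fun j _ => Finset.sum_congr rfl fun k _ => ?_
  exact (box_entryB B r c i i' j k X Y).symm

theorem gap_formB (hm : 2 ≤ m) (hn : 2 ≤ n) (F : OmegaB B r c → ℝ) (hF : ∑ X, F X = 0) :
    ∑ X, ∑ Y, F X * chainB B r c X Y * F Y ≤
      (1 - 4 / ((m : ℝ) ^ 2 * (n : ℝ) ^ 2)) * ∑ X, F X ^ 2 := by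
  have hmn : (0 : ℝ) < (m : ℝ) ^ 2 * (n : ℝ) ^ 2 := by
    have h1 : (0 : ℝ) < m := by exact_mod_cast (by omega : 0 < m)
    have h2 : (0 : ℝ) < n := by exact_mod_cast (by omega : 0 < n)
    positivity
  have h1 := four_variance_leB B r c F
  have h2 : ∑ x, (F x - avg ⊤ F x) ^ 2 = ∑ x, F x ^ 2 :=
    Finset.sum_congr rfl fun x _ => by rw [avg_top_eq_zero F hF x, sub_zero]
  have h3 : ∑ q : Fin m × Fin m × Fin n × Fin n, boxFormB B r c F q =
      ∑ q : Fin m × Fin m × Fin n × Fin n,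
        (F ⬝ᵥ F - F ⬝ᵥ avgKer (boxSB B r c q.1 q.2.1 q.2.2.1 q.2.2.2) *ᵥ F) := by
    refine Finset.sum_congr rfl fun q _ => ?_
    rw [← avgKer_dirichlet]
    unfold boxFormB
    refine Finset.sum_congr rfl fun x _ => ?_
    rw [avg_eq_avgKer]
  have e : F ⬝ᵥ F = ∑ x, F x ^ 2 := by
    simp only [dotProduct]; exact Finset.sum_congr rfl fun x _ => by ring
  have hcard : (Fintype.card (Fin m × Fin m × Fin n × Fin n) : ℝ) =
      (m : ℝ) ^ 2 * (n : ℝ) ^ 2 := by
    simp [Fintype.card_prod]; ring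
  have hform : F ⬝ᵥ (chainB B r c) *ᵥ F = (1 / ((m : ℝ) ^ 2 * (n : ℝ) ^ 2)) *
      ∑ q : Fin m × Fin m × Fin n × Fin n,
        F ⬝ᵥ avgKer (boxSB B r c q.1 q.2.1 q.2.2.1 q.2.2.2) *ᵥ F := by
    unfold chainB
    rw [mixKer_form, hcard]
  have hlhs : ∑ X, ∑ Y, F X * chainB B r c X Y * F Y = F ⬝ᵥ (chainB B r c) *ᵥ F := by
    simp only [dotProduct, mulVec, Finset.mul_sum]
    refine Finset.sum_congr rfl fun X _ => Finset.sum_congr rfl fun Y _ => by ring
  rw [h2, h3, Finset.sum_sub_distrib, Finset.sum_const, Finset.card_univ, nsmul_eq_mul, hcard,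
    e] at h1
  rw [hlhs, hform]
  set A := ∑ x, F x ^ 2
  set C := ∑ q : Fin m × Fin m × Fin n × Fin n,
        F ⬝ᵥ avgKer (boxSB B r c q.1 q.2.1 q.2.2.1 q.2.2.2) *ᵥ F
  have : C ≤ ((m : ℝ) ^ 2 * (n : ℝ) ^ 2) * A - 4 * A := by linarith
  calc 1 / ((m : ℝ) ^ 2 * (n : ℝ) ^ 2) * C
      ≤ 1 / ((m : ℝ) ^ 2 * (n : ℝ) ^ 2) * (((m : ℝ) ^ 2 * (n : ℝ) ^ 2) * A - 4 * A) := by
        gcongr
    _ = (1 - 4 / ((m : ℝ) ^ 2 * (n : ℝ) ^ 2)) * A := by field_simp

theorem psd_formB (F : OmegaB B r c → ℝ) : 0 ≤ ∑ X, ∑ Y, F X * chainB B r c X Y * F Y := by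
  have hlhs : ∑ X, ∑ Y, F X * chainB B r c X Y * F Y = F ⬝ᵥ (chainB B r c) *ᵥ F := by
    simp only [dotProduct, mulVec, Finset.mul_sum]
    refine Finset.sum_congr rfl fun X _ => Finset.sum_congr rfl fun Y _ => by ring
  rw [hlhs]
  exact mixKer_psd _ F

theorem mixingB (hm : 2 ≤ m) (hn : 2 ≤ n) (X : OmegaB B r c) (ε : ℝ) (hε : 0 < ε) (t : ℕ)
    (ht : (m : ℝ) ^ 2 * (n : ℝ) ^ 2 / 4 *
      (Real.log (Fintype.card (OmegaB B r c)) / 2 + Real.log (1 / ε)) ≤ t) :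
    (1 / 2) * ∑ Y, |(stepB B r c ^ t) X Y - 1 / (Fintype.card (OmegaB B r c) : ℝ)| ≤ ε := by
  have h := tv_chain_leB B r c hm hn X t
  rw [stepB_eq]
  refine h.trans ?_
  have hm0 : (2 : ℝ) ≤ m := by exact_mod_cast hm
  have hn0 : (2 : ℝ) ≤ n := by exact_mod_cast hn
  have hmn : (0 : ℝ) < (m : ℝ) ^ 2 * (n : ℝ) ^ 2 := by positivity
  have hmn4 : 4 ≤ (m : ℝ) ^ 2 * (n : ℝ) ^ 2 := by
    have h3 : (2 : ℝ) ^ 2 ≤ (m : ℝ) ^ 2 := by gcongr
    have h4 : (2 : ℝ) ^ 2 ≤ (n : ℝ) ^ 2 := by gcongr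
    nlinarith
  set g : ℝ := 4 / ((m : ℝ) ^ 2 * (n : ℝ) ^ 2) with hg
  have hg0 : 0 < g := by positivity
  have hg1 : g ≤ 1 := by rw [hg, div_le_one hmn]; exact hmn4
  have hpow : (1 - g) ^ t ≤ Real.exp (-(g * t)) := by
    have h1 : 1 - g ≤ Real.exp (-g) := by
      have := Real.add_one_le_exp (-g); linarith
    calc (1 - g) ^ t ≤ (Real.exp (-g)) ^ t := by gcongr
      _ = Real.exp (-(g * t)) := by rw [← Real.exp_nat_mul]; congr 1; ring
  have hN : (0 : ℝ) < Fintype.card (OmegaB B r c) := by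
    have : 0 < Fintype.card (OmegaB B r c) := Fintype.card_pos_iff.2 ⟨X⟩
    exact_mod_cast this
  set N : ℝ := (Fintype.card (OmegaB B r c) : ℝ) with hNdef
  have hsq : Real.sqrt N = Real.exp (Real.log N / 2) := by
    rw [Real.sqrt_eq_iff_mul_self_eq hN.le (Real.exp_pos _).le, ← Real.exp_add, add_halves,
      Real.exp_log hN]
  have hgt : Real.log N / 2 + Real.log (1 / ε) ≤ g * t := by
    have : Real.log N / 2 + Real.log (1 / ε) =
        g * ((m : ℝ) ^ 2 * (n : ℝ) ^ 2 / 4 * (Real.log N / 2 + Real.log (1 / ε))) := by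
      rw [hg]; field_simp
    rw [this]
    exact mul_le_mul_of_nonneg_left ht hg0.le
  have h0 : (0 : ℝ) ≤ (1 - g) ^ t := pow_nonneg (by linarith) t
  calc (1 / 2) * (Real.sqrt N * (1 - g) ^ t)
      ≤ (1 / 2) * (Real.exp (Real.log N / 2) * Real.exp (-(g * t))) := by
        rw [hsq]
        gcongr
    _ = (1 / 2) * Real.exp (Real.log N / 2 - g * t) := by
        rw [← Real.exp_add]; rfl
    _ ≤ (1 / 2) * Real.exp (-Real.log (1 / ε)) := by
        gcongr; linarith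
    _ = (1 / 2) * ε := by
        rw [Real.log_div one_ne_zero hε.ne', Real.log_one, zero_sub, neg_neg, Real.exp_log hε]
    _ ≤ ε := by linarith

theorem all_partsB (hm : 2 ≤ m) (hn : 2 ≤ n) :
    ((∀ X Y, 0 ≤ stepB B r c X Y ∧ stepB B r c X Y = stepB B r c Y X) ∧
      ∀ X, ∑ Y, stepB B r c X Y = 1) ∧
    RM.SecondEigLe (stepB B r c) (1 - 4 / ((m : ℝ) ^ 2 * (n : ℝ) ^ 2)) ∧
    ∀ (X : OmegaB B r c) (ε : ℝ), 0 < ε → ∀ t : ℕ,
      (m : ℝ) ^ 2 * (n : ℝ) ^ 2 / 4 *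
        (Real.log (Fintype.card (OmegaB B r c)) / 2 + Real.log (1 / ε)) ≤ t →
      RM.tv ((stepB B r c ^ t) X) (fun _ => 1 / (Fintype.card (OmegaB B r c) : ℝ)) ≤ ε := by
  have : Nonempty (Fin m) := ⟨⟨0, by omega⟩⟩
  have : Nonempty (Fin n) := ⟨⟨0, by omega⟩⟩
  refine ⟨⟨fun X Y => ⟨?_, ?_⟩, fun X => ?_⟩, fun F hF => ⟨?_, ?_⟩,
    fun X ε hε t ht => mixingB B r c hm hn X ε hε t ht⟩
  · rw [stepB_eq]
    exact mixKer_nonneg _ _ _
  · rw [stepB_eq]
    exact congrFun (congrFun (mixKer_symm (fun q : Fin m × Fin m × Fin n × Fin n =>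
      boxSB B r c q.1 q.2.1 q.2.2.1 q.2.2.2)) Y) X
  · rw [stepB_eq]
    exact mixKer_row (fun q : Fin m × Fin m × Fin n × Fin n =>
      boxSB B r c q.1 q.2.1 q.2.2.1 q.2.2.2) X
  · rw [stepB_eq]
    exact psd_formB B r c F
  · rw [stepB_eq]
    exact gap_formB B r c hm hn F hF

end Tables

end Vale.Agent.P328.H350
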