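import Vale.Agent.P328.RMDefs

/-!
# Mixed contingency tables: some rows are restricted to entries `0` and `1`
-/

namespace Vale.Agent.P328.H350

open Finset Vale.Agent.P328.RM

variable {m n : ℕ}

/-- `X` is a contingency table with row sums `r` and column sums `c`, and all entries in the rows
of `B` are `0` or `1` -/
def IsMixed (B : Finset (Fin m)) (r : Fin m → ℕ) (c : Fin n → ℕ) (X : Fin m → Fin n → ℕ) : Prop :=
  IsTable r c X ∧ ∀ i ∈ B, ∀ j, X i j ≤ 1

/-- the state space: all such tables -/
def OmegaB (B : Finset (Fin m)) (r : Fin m → ℕ) (c : Fin n → ℕ) : Type :=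
  {X : Fin m → Fin n → ℕ // IsMixed B r c X}

noncomputable instance (B : Finset (Fin m)) (r : Fin m → ℕ) (c : Fin n → ℕ) :
    Fintype (OmegaB B r c) :=
  ((finite_tables r c).subset (fun _ hX => hX.1) : {X | IsMixed B r c X}.Finite).fintype

noncomputable instance (B : Finset (Fin m)) (r : Fin m → ℕ) (c : Fin n → ℕ) :
    DecidableEq (OmegaB B r c) :=
  Classical.decEq _

open scoped Classical in
/-- one step of the chain: rows `i, i'` and columns `j, k` are chosen independently and uniformly;
then the table is replaced by a uniformly random table of the state space with the same entries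
outside the minor -/
noncomputable def stepB (B : Finset (Fin m)) (r : Fin m → ℕ) (c : Fin n → ℕ) :
    Matrix (OmegaB B r c) (OmegaB B r c) ℝ :=
  fun X Y => 1 / ((m : ℝ) ^ 2 * (n : ℝ) ^ 2) * ∑ i : Fin m, ∑ i' : Fin m, ∑ j : Fin n, ∑ k : Fin n,
    if SameOff i i' j k X.1 Y.1 then
      1 / (Nat.card {Z : OmegaB B r c // SameOff i i' j k X.1 Z.1} : ℝ) else 0

end Vale.Agent.P328.H350
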