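import Vale.Agent.P328.H350.Conn
import Vale.Agent.P328.H350.Defs

/-!
# Tensorization over pairs of columns for mixed tables (helper350)
-/

set_option linter.all false

namespace Vale.Agent.P328.H350

open Finset Vale.Agent.P328

section General

variable {ι κ : Type*} [Fintype ι] [DecidableEq ι] [Fintype κ] [LinearOrder κ] (B : ι → Prop)
  [DecidablePred B] (a : ι → ℕ) (b : κ → ℕ)

/-- agreement outside two lines -/
def pairSW (p : κ × κ) : Setoid {T // PM B a b T} where
  r T T' := ∀ x : ι × κ, x.2 ≠ p.1 → x.2 ≠ p.2 → T.1 x = T'.1 x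
  iseqv := ⟨fun _ _ _ _ => rfl, fun h x h1 h2 => (h x h1 h2).symm,
    fun h h' x h1 h2 => (h x h1 h2).trans (h' x h1 h2)⟩

theorem step_ineqW [Fintype {T // PM B a b T}] (F : {T // PM B a b T} → ℝ) :
    ∑ x, (F x - avg ⊤ F x) ^ 2 ≤
      ∑ p : {p : κ × κ // p.1 < p.2}, ∑ x, (F x - avg (pairSW B a b p.1) F x) ^ 2 := by
  classical
  refine variance_tensorization (K := fun p : {p : κ × κ // p.1 < p.2} => KmatW B a b p.1)
    (R := ⊤) (r := fun p => pairSW B a b p.1) ?_ ?_ ?_ ?_ ?_ ?_ F
  · intro p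
    ext T T'
    exact KmatW_symm B a b p.2 T' T
  · intro p T T' h
    by_contra hc
    exact h (fun x h1 h2 => KmatW_supp B a b p.2 hc x h1 h2)
  · intro p q hpq T T' h1 h2
    have h3 : ∀ (s : κ × κ), pairSW B a b s T T' → Agree (Equiv.refl (ι × κ)) univ s T.1 T'.1 := by
      intro s hs x hx
      refine hs x ?_ ?_
      · intro h
        exact (hx x.1 (Finset.mem_univ _)).1 (by rw [← h]; rfl)
      · intro h
        exact (hx x.1 (Finset.mem_univ _)).2 (by rw [← h]; rfl)
    have h4 := agree_inter (Equiv.refl (ι × κ)) univ a b (Marg (Equiv.refl (ι × κ)) a b)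
      (fun _ => Iff.rfl) p.2 q.2 (fun h => hpq (Subtype.ext h))
      (T := ⟨T.1, T.2.1⟩) (T' := ⟨T'.1, T'.2.1⟩) (h3 _ h1) (h3 _ h2)
    have h5 : T.1 = T'.1 :=
      congrArg (fun z : {T // Marg (Equiv.refl (ι × κ)) a b T} => z.1) h4
    exact Subtype.ext h5
  · intro p
    rw [sum_incPairs (fun q => KmatW B a b q)]
    exact KmatW_comm B a b p.2
  · intro p T T' h
    trivial
  · intro D hD T T' h
    exact conn B a b D (fun p hp T T' hne => hD ⟨p, hp⟩ T T' hne) T T'

end General

section Tables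

variable {m n : ℕ} (B : Finset (Fin m)) (r : Fin m → ℕ) (c : Fin n → ℕ)

/-- agreement outside the `2 × 2` minor with rows `i, i'` and columns `j, k` -/
def boxSB (i i' : Fin m) (j k : Fin n) : Setoid (OmegaB B r c) where
  r X Y := RM.SameOff i i' j k X.1 Y.1
  iseqv := ⟨fun _ _ _ _ => rfl, fun h a b hx => (h a b hx).symm,
    fun h h' a b hx => (h a b hx).trans (h' a b hx)⟩

/-- agreement outside the columns `j, k` -/
def colSB (j k : Fin n) : Setoid (OmegaB B r c) where
  r X Y := ∀ a b, b ≠ j → b ≠ k → X.1 a b = Y.1 a b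
  iseqv := ⟨fun _ _ _ _ _ => rfl, fun h a b h1 h2 => (h a b h1 h2).symm,
    fun h h' a b h1 h2 => (h a b h1 h2).trans (h' a b h1 h2)⟩

/-- uncurrying -/
def uncB : OmegaB B r c ≃ {T : Fin m × Fin n → ℕ // PM (fun i => i ∈ B) r c T} where
  toFun X := ⟨fun p => X.1 p.1 p.2, X.2⟩
  invFun T := ⟨fun i j => T.1 (i, j), T.2⟩
  left_inv _ := rfl
  right_inv _ := rfl

noncomputable instance : Fintype {T : Fin m × Fin n → ℕ // PM (fun i => i ∈ B) r c T} :=
  Fintype.ofEquiv _ (uncB B r c)

theorem sum_transportB (s : Setoid (OmegaB B r c))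
    (s' : Setoid {T : Fin m × Fin n → ℕ // PM (fun i => i ∈ B) r c T})
    (h : ∀ x y, s x y ↔ s' (uncB B r c x) (uncB B r c y)) (F : OmegaB B r c → ℝ) :
    ∑ x, (F x - avg s F x) ^ 2 =
      ∑ y, ((F ∘ (uncB B r c).symm) y - avg s' (F ∘ (uncB B r c).symm) y) ^ 2 := by
  rw [← Equiv.sum_comp (uncB B r c)]
  refine Finset.sum_congr rfl fun x _ => ?_
  rw [avg_equiv (uncB B r c) s s' h F x]
  simp

/-- first step: pairs of columns -/
theorem cols_ineqB (F : OmegaB B r c → ℝ) :
    ∑ x, (F x - avg ⊤ F x) ^ 2 ≤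
      ∑ p : {p : Fin n × Fin n // p.1 < p.2},
        ∑ x, (F x - avg (colSB B r c p.1.1 p.1.2) F x) ^ 2 := by
  have h := step_ineqW (fun i => i ∈ B) r c (F ∘ (uncB B r c).symm)
  rw [sum_transportB B r c ⊤ ⊤ (fun x y => Iff.rfl)]
  · refine h.trans (le_of_eq ?_)
    refine Finset.sum_congr rfl fun p _ => ?_
    rw [sum_transportB B r c (colSB B r c p.1.1 p.1.2) (pairSW (fun i => i ∈ B) r c p.1)]
    intro x y
    constructor
    · intro hxy z h1 h2
      exact hxy z.1 z.2 h1 h2
    · intro hxy i l h1 h2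
      exact hxy (i, l) h1 h2

end Tables

section Localize

variable {Ω : Type*} [Fintype Ω]

theorem avg_sub {s t : Setoid Ω} (hts : ∀ x y, t x y → s x y) (x0 : Ω)
    [Fintype {x // s x0 x}] (F : Ω → ℝ) (y : {x // s x0 x}) :
    avg t F y.1 = avg (t.comap Subtype.val) (fun z : {x // s x0 x} => F z.1) y := by
  classical
  have hcls : (Finset.univ.filter (fun z => t y.1 z)) =
      (Finset.univ.filter (fun z : {x // s x0 x} => (t.comap Subtype.val) y z)).map
        (Function.Embedding.subtype _) := by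
    ext z
    simp only [Finset.mem_filter, Finset.mem_univ, true_and, Finset.mem_map,
      Function.Embedding.subtype_apply]
    constructor
    · intro hz
      exact ⟨⟨z, s.trans' y.2 (hts _ _ hz)⟩, hz, rfl⟩
    · rintro ⟨w, hw, rfl⟩
      exact hw
  unfold avg
  rw [hcls, Finset.sum_map, Finset.card_map]
  simp

/-- it is enough to prove a variance inequality inside the classes -/
theorem localize (s : Setoid Ω) {Q : Type*} [Fintype Q] (t : Q → Setoid Ω)
    (hts : ∀ q x y, t q x y → s x y) (F : Ω → ℝ)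
    (h : ∀ x0 : Ω, ∀ _ : Fintype {x // s x0 x}, ∀ G : {x // s x0 x} → ℝ,
      ∑ x, (G x - avg ⊤ G x) ^ 2 ≤ ∑ q, ∑ x, (G x - avg ((t q).comap Subtype.val) G x) ^ 2) :
    ∑ x, (F x - avg s F x) ^ 2 ≤ ∑ q, ∑ x, (F x - avg (t q) F x) ^ 2 := by
  classical
  have key : ∀ f : Ω → ℝ, ∑ x, f x = ∑ x0, (∑ x : {x // s x0 x}, f x.1) /
      ((Finset.univ.filter (fun y => s x0 y)).card : ℝ) := by
    intro f
    have h1 : ∀ x0, (∑ x : {x // s x0 x}, f x.1) /
        ((Finset.univ.filter (fun y => s x0 y)).card : ℝ) =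
        ∑ x ∈ Finset.univ.filter (fun y => s x0 y),
          f x / ((Finset.univ.filter (fun y => s x0 y)).card : ℝ) := by
      intro x0
      rw [← Finset.sum_div]
      congr 1
      exact (Finset.sum_subtype (Finset.univ.filter (fun y => s x0 y)) (by simp) f).symm
    rw [Finset.sum_congr rfl fun x0 _ => h1 x0, sum_class_swap]
    refine Finset.sum_congr rfl fun y _ => ?_
    have hc : ∀ x ∈ Finset.univ.filter (fun x => s y x),
        f y / ((Finset.univ.filter (fun z => s x z)).card : ℝ) =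
        f y / ((Finset.univ.filter (fun z => s y z)).card : ℝ) := by
      intro x hx
      simp only [Finset.mem_filter, Finset.mem_univ, true_and] at hx
      have h2 : (Finset.univ.filter (fun z => s x z)) = (Finset.univ.filter (fun z => s y z)) := by
        ext z
        simp only [Finset.mem_filter, Finset.mem_univ, true_and]
        exact ⟨fun hz => s.trans hx hz, fun hz => s.trans (s.symm hx) hz⟩
      rw [h2]
    rw [Finset.sum_congr rfl hc, Finset.sum_const, nsmul_eq_mul]
    have := card_class_ne (s := s) y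
    field_simp
  rw [key]
  have h2 : ∑ q, ∑ x, (F x - avg (t q) F x) ^ 2 =
      ∑ x0, (∑ q, ∑ x : {x // s x0 x}, (F x.1 - avg (t q) F x.1) ^ 2) /
        ((Finset.univ.filter (fun y => s x0 y)).card : ℝ) := by
    rw [Finset.sum_congr rfl fun q _ => key (fun x => (F x - avg (t q) F x) ^ 2),
      Finset.sum_comm]
    refine Finset.sum_congr rfl fun x0 _ => ?_
    rw [Finset.sum_div]
  rw [h2]
  refine Finset.sum_le_sum fun x0 _ => ?_
  refine div_le_div_of_nonneg_right ?_ (by positivity)
  have h3 := h x0 inferInstance (fun z => F z.1)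
  have h4 : ∀ x : {x // s x0 x}, avg s F x.1 = avg ⊤ (fun z : {x // s x0 x} => F z.1) x := by
    intro x
    rw [avg_sub (s := s) (t := s) (fun _ _ h => h) x0 F x]
    congr 1
    ext u v
    constructor
    · intro _; trivial
    · intro _
      exact s.trans' (s.symm' u.2) v.2
  have h5 : ∀ q, ∀ x : {x // s x0 x}, avg (t q) F x.1 =
      avg ((t q).comap Subtype.val) (fun z : {x // s x0 x} => F z.1) x :=
    fun q x => avg_sub (hts q) x0 F x
  simp only [h4, h5]
  exact h3

end Localize

end Vale.Agent.P328.H350
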