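import Vale.Agent.P328.H350.Pair

/-!
# Mixed tables are connected by unit switches (helper350)
-/

set_option linter.all false

namespace Vale.Agent.P328.H350

open Finset Vale.Agent.P328

variable {ι κ : Type*} [Fintype ι] [DecidableEq ι] [Fintype κ] [LinearOrder κ] (B : ι → Prop)
  [DecidablePred B] (a : ι → ℕ) (b : κ → ℕ)

theorem ww_ne_zero {x : ι × κ} {T : ι × κ → ℕ} (h1 : 0 < T x) (h2 : B x.1 → T x ≤ 1) :
    ww B x T ≠ 0 := by
  unfold ww
  have hs : sg B x T ≠ 0 := by
    intro h
    have := sg_sq B x T
    rw [h] at this
    norm_num at this
  refine mul_ne_zero ?_ hs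
  unfold vv
  by_cases hB : B x.1
  · have h3 := h2 hB
    have h4 : T x = 1 := by omega
    simp [hB, h4]
  · simp only [hB, if_false]
    have : (0 : ℝ) < T x := by exact_mod_cast h1
    positivity

/-- a legal switch gives a nonzero matrix element -/
theorem switch {r r' : ι} {j k : κ} (hrr : r ≠ r') (hjk : j ≠ k) (T : {T // PM B a b T})
    (h1 : 0 < T.1 (r, j)) (h2 : 0 < T.1 (r', k)) (h3 : B r → T.1 (r, k) = 0)
    (h4 : B r' → T.1 (r', j) = 0) (D : {T // PM B a b T} → ℝ)
    (hD : ∀ p : κ × κ, p.1 < p.2 → ∀ T T' : {T // PM B a b T},
      KmatW B a b p T T' ≠ 0 → D T = D T') :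
    ∃ T1 : {T // PM B a b T}, T1.1 + un (r, j) + un (r', k) = T.1 + un (r', j) + un (r, k) ∧
      D T1 = D T := by
  have hkj : ¬ k = j := fun h => hjk h.symm
  have hrr' : ¬ r' = r := fun h => hrr h.symm
  set T1 : ι × κ → ℕ := fun x => T.1 x + un (r', j) x + un (r, k) x
      - un (r, j) x - un (r', k) x with hT1
  have v : ∀ x, T1 x + un (r, j) x + un (r', k) x = T.1 x + un (r', j) x + un (r, k) x := by
    intro x
    simp only [hT1]
    by_cases x1 : x = (r, j)
    · subst x1
      simp only [un, Pi.single_apply, Prod.mk.injEq, hrr, hjk, and_false, false_and, if_false,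
        if_true, and_true, and_self]
      omega
    · by_cases x2 : x = (r', k)
      · subst x2
        simp only [un, Pi.single_apply, Prod.mk.injEq, hrr', hkj, and_false, false_and, if_false,
          if_true, and_true, and_self]
        omega
      · simp only [un, Pi.single_apply, x1, x2, if_false]
        omega
  have hrel : T1 + un (r, j) + un (r', k) = T.1 + un (r', j) + un (r, k) := by
    funext x
    simp only [Pi.add_apply]
    exact v x
  have hcap : Cap B T1 := by
    intro i hi l
    have h5 := T.2.2 i hi l
    have h6 := v (i, l)
    by_cases x3 : ((i, l) : ι × κ) = (r', j)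
    · have hi' : i = r' := congrArg Prod.fst x3
      have hl : l = j := congrArg Prod.snd x3
      subst hi'; subst hl
      have h7 := h4 hi
      simp only [un, Pi.single_apply, Prod.mk.injEq, hrr', hkj, hjk, and_false, false_and,
        if_false, if_true, and_true, and_self] at h6
      omega
    · by_cases x4 : ((i, l) : ι × κ) = (r, k)
      · have hi' : i = r := congrArg Prod.fst x4
        have hl : l = k := congrArg Prod.snd x4
        subst hi'; subst hl
        have h7 := h3 hi
        simp only [un, Pi.single_apply, Prod.mk.injEq, hrr, hkj, and_false, false_and,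
          if_false, if_true, and_true, and_self] at h6
        omega
      · simp only [un, Pi.single_apply, x3, x4, if_false] at h6
        omega
  have hPM : PM B a b T1 := ⟨marg_of_rel (Equiv.refl (ι × κ)) (i := r') (i' := r) (j := j)
    (k := k) (T' := T.1) hrel T.2.1, hcap⟩
  refine ⟨⟨T1, hPM⟩, hrel, ?_⟩
  have e1 := v (r, j)
  have e2 := v (r', k)
  have e3 := v (r', j)
  have e4 := v (r, k)
  simp only [un, Pi.single_apply, Prod.mk.injEq, hrr, hrr', hjk, hkj, and_false, false_and,
    if_false, if_true, and_true, and_self, true_and] at e1 e2 e3 e4
  have hTc := T.2.2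
  rcases lt_or_gt_of_ne hjk with hlt | hgt
  · apply hD (j, k) hlt
    show KKW B (j, k) T1 T.1 ≠ 0
    rw [KKW_single B (U := fun x => T.1 x + un (r', j) x - un (r', k) x) hrr hjk]
    · refine mul_ne_zero (mul_ne_zero ?_ ?_) (mul_ne_zero ?_ ?_)
      · exact ww_ne_zero B h2 (fun h => hTc r' h k)
      · refine ww_ne_zero B ?_ ?_
        · simp only [un, Pi.single_apply, Prod.mk.injEq, hjk, and_false, if_false, if_true]
          omega
        · intro h
          have := h4 h
          simp only [un, Pi.single_apply, Prod.mk.injEq, hjk, and_false, if_false, if_true]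
          omega
      · refine ww_ne_zero B ?_ ?_
        · omega
        · intro h
          exact hcap r h k
      · refine ww_ne_zero B ?_ ?_
        · simp only [un, Pi.single_apply, Prod.mk.injEq, hrr, false_and, if_false]
          omega
        · intro h
          have := hTc r h j
          simp only [un, Pi.single_apply, Prod.mk.injEq, hrr, false_and, if_false]
          omega
    · funext x
      simp only [Pi.add_apply]
      by_cases x2 : x = (r', k)
      · subst x2
        simp only [un, Pi.single_apply, Prod.mk.injEq, hkj, and_false, if_true, if_false]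
        omega
      · simp only [un, Pi.single_apply, x2, if_false]
        omega
    · funext x
      have hx := v x
      simp only [Pi.add_apply]
      by_cases x2 : x = (r', k)
      · subst x2
        simp only [un, Pi.single_apply, Prod.mk.injEq, hkj, hrr', and_false, false_and, if_true,
          if_false] at hx ⊢
        omega
      · simp only [un, Pi.single_apply, x2, if_false] at hx ⊢
        omega
  · apply hD (k, j) hgt
    show KKW B (k, j) T1 T.1 ≠ 0
    rw [KKW_single B (U := fun x => T.1 x + un (r, k) x - un (r, j) x) (i := r') (i' := r)
      hrr' hkj]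
    · refine mul_ne_zero (mul_ne_zero ?_ ?_) (mul_ne_zero ?_ ?_)
      · exact ww_ne_zero B h1 (fun h => hTc r h j)
      · refine ww_ne_zero B ?_ ?_
        · simp only [un, Pi.single_apply, Prod.mk.injEq, hkj, and_false, if_false, if_true]
          omega
        · intro h
          have := h3 h
          simp only [un, Pi.single_apply, Prod.mk.injEq, hkj, and_false, if_false, if_true]
          omega
      · refine ww_ne_zero B ?_ ?_
        · omega
        · intro h
          exact hcap r' h j
      · refine ww_ne_zero B ?_ ?_
        · simp only [un, Pi.single_apply, Prod.mk.injEq, hrr', false_and, if_false]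
          omega
        · intro h
          have := hTc r' h k
          simp only [un, Pi.single_apply, Prod.mk.injEq, hrr', false_and, if_false]
          omega
    · funext x
      simp only [Pi.add_apply]
      by_cases x2 : x = (r, j)
      · subst x2
        simp only [un, Pi.single_apply, Prod.mk.injEq, hjk, and_false, if_true, if_false]
        omega
      · simp only [un, Pi.single_apply, x2, if_false]
        omega
    · funext x
      have hx := v x
      simp only [Pi.add_apply]
      by_cases x2 : x = (r, j)
      · subst x2
        simp only [un, Pi.single_apply, Prod.mk.injEq, hjk, hrr, and_false, false_and, if_true,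
          if_false] at hx ⊢
        omega
      · simp only [un, Pi.single_apply, x2, if_false] at hx ⊢
        omega

/-- the good quadruple -/
theorem exists_quad {T T' : ι × κ → ℕ} (hT : Marg (Equiv.refl (ι × κ)) a b T)
    (hT' : Marg (Equiv.refl (ι × κ)) a b T') (hne : T ≠ T') :
    ∃ (i i' : ι) (j k : κ), T' (i, j) < T (i, j) ∧ T (i', j) < T' (i', j) ∧
      T' (i', k) < T (i', k) ∧ T (i, k) ≤ T' (i, k) := by
  classical
  have hr : ∀ i, ∑ l, T (i, l) = ∑ l, T' (i, l) := fun i => (hT.1 i).trans (hT'.1 i).symm
  have hc : ∀ l, ∑ i, T (i, l) = ∑ i, T' (i, l) := fun l => (hT.2 l).trans (hT'.2 l).symm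
  set P : ι → Finset κ := fun i => univ.filter (fun l => T' (i, l) < T (i, l)) with hP
  have hmem : ∀ i l, l ∈ P i ↔ T' (i, l) < T (i, l) := fun i l => by simp [hP]
  set R : Finset ι := univ.filter (fun i => (P i).Nonempty) with hR
  have hRn : R.Nonempty := by
    by_contra hc'
    rw [Finset.not_nonempty_iff_eq_empty] at hc'
    apply hne
    funext x
    obtain ⟨i, l⟩ := x
    have hle : ∀ l, T (i, l) ≤ T' (i, l) := by
      intro l
      by_contra h
      push Not at h
      have : i ∈ R := by
        simp only [hR, Finset.mem_filter, Finset.mem_univ, true_and]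
        exact ⟨l, (hmem i l).2 h⟩
      rw [hc'] at this
      exact absurd this (Finset.notMem_empty _)
    exact (Finset.sum_eq_sum_iff_of_le (fun l _ => hle l)).mp (hr i) l (Finset.mem_univ l)
  obtain ⟨i, hiR, hmin⟩ := Finset.exists_min_image R (fun i => (P i).card) hRn
  obtain ⟨j, hj⟩ : (P i).Nonempty := by
    simpa [hR] using hiR
  have hij := (hmem i j).1 hj
  obtain ⟨i', hi'⟩ : ∃ i', T (i', j) < T' (i', j) := by
    by_contra h
    push Not at h
    have := (Finset.sum_eq_sum_iff_of_le (fun r (_ : r ∈ univ) => h r)).mp (hc j).symm i
      (Finset.mem_univ i)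
    omega
  obtain ⟨k0, hk0⟩ : ∃ k, T' (i', k) < T (i', k) := by
    by_contra h
    push Not at h
    have := (Finset.sum_eq_sum_iff_of_le (fun l (_ : l ∈ univ) => h l)).mp (hr i') j
      (Finset.mem_univ j)
    omega
  have hi'R : i' ∈ R := by
    simp only [hR, Finset.mem_filter, Finset.mem_univ, true_and]
    exact ⟨k0, (hmem i' k0).2 hk0⟩
  have hcard := hmin i' hi'R
  have hns : ¬ P i' ⊆ P i := by
    intro hs
    have hss : P i' ⊂ P i := by
      refine ⟨hs, fun h => ?_⟩
      have := (hmem i' j).1 (h hj)
      omega
    have := Finset.card_lt_card hss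
    omega
  obtain ⟨k, hk1, hk2⟩ := Finset.not_subset.1 hns
  refine ⟨i, i', j, k, hij, hi', (hmem i' k).1 hk1, ?_⟩
  by_contra h
  push Not at h
  exact hk2 ((hmem i k).2 h)

theorem conn (D : {T // PM B a b T} → ℝ)
    (hD : ∀ p : κ × κ, p.1 < p.2 → ∀ T T' : {T // PM B a b T},
      KmatW B a b p T T' ≠ 0 → D T = D T') (T T' : {T // PM B a b T}) : D T = D T' := by
  suffices H : ∀ N : ℕ, ∀ T T' : {T // PM B a b T},
      ∑ x : ι × κ, (T.1 x - T'.1 x) ≤ N → D T = D T' from H _ T T' le_rfl
  intro N
  induction N with
  | zero =>
    intro T T' hN
    have hz : ∀ x : ι × κ, T.1 x - T'.1 x = 0 := by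
      intro x
      exact (Finset.sum_eq_zero_iff.mp (Nat.le_zero.mp hN)) x (Finset.mem_univ x)
    have hle : ∀ x : ι × κ, T.1 x ≤ T'.1 x := fun x => Nat.sub_eq_zero_iff_le.mp (hz x)
    have heq : T = T' := by
      apply Subtype.ext
      funext x
      obtain ⟨i, l⟩ := x
      have hs : ∑ j, T.1 (i, j) = ∑ j, T'.1 (i, j) := (T.2.1.1 i).trans (T'.2.1.1 i).symm
      exact (Finset.sum_eq_sum_iff_of_le (fun j _ => hle (i, j))).mp hs l (Finset.mem_univ l)
    rw [heq]
  | succ N ih =>
    intro T T' hN
    by_cases hTe : T = T'
    · rw [hTe]
    obtain ⟨i, i', j, k, q1, q2, q3, q4⟩ := exists_quad a b T.2.1 T'.2.1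
      (fun h => hTe (Subtype.ext h))
    have hii : i ≠ i' := by rintro rfl; omega
    have hjk : j ≠ k := by rintro rfl; omega
    have hkj : ¬ k = j := fun h => hjk h.symm
    have hii' : ¬ i' = i := fun h => hii h.symm
    by_cases hcase : B i ∧ T.1 (i, k) ≠ 0
    · -- switch `T'`
      obtain ⟨hBi, hik⟩ := hcase
      have c1 := T.2.2 i hBi j
      have c2 := T.2.2 i hBi k
      have c4 := T'.2.2 i hBi k
      obtain ⟨T1, hrel, hD1⟩ := switch B a b (r := i') (r' := i) (j := j) (k := k) hii'
        hjk T' (by omega) (by omega)
        (fun h => by have := T.2.2 i' h k; omega) (fun h => by omega) D hD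
      rw [← hD1]
      apply ih
      have hpt : ∀ x : ι × κ, (T.1 x - T1.1 x) + (if x = (i, j) then 1 else 0)
          + (if x = (i', k) then 1 else 0) ≤
          (T.1 x - T'.1 x) + (if x = (i, k) then 1 else 0) := by
        intro x
        have hx := congrFun hrel x
        simp only [Pi.add_apply, un, Pi.single_apply] at hx
        by_cases x1 : x = (i, j)
        · subst x1
          simp only [Prod.mk.injEq, hii, hjk, and_false, false_and, if_false, if_true, and_true,
            and_self] at hx ⊢
          omega
        · by_cases x2 : x = (i', k)
          · subst x2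
            simp only [Prod.mk.injEq, hii', hkj, and_false, false_and, if_false, if_true,
              and_true, and_self] at hx ⊢
            omega
          · by_cases x3 : x = (i, k)
            · subst x3
              simp only [Prod.mk.injEq, hii, hkj, and_false, false_and, if_false, if_true,
                and_true, and_self] at hx ⊢
              omega
            · by_cases x4 : x = (i', j)
              · subst x4
                simp only [Prod.mk.injEq, hii', hjk, and_false, false_and, if_false, if_true,
                  and_true, and_self] at hx ⊢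
                omega
              · simp only [x1, x2, x3, x4, if_false] at hx ⊢
                omega
      have hsum := Finset.sum_le_sum (fun x (_ : x ∈ (univ : Finset (ι × κ))) => hpt x)
      simp only [Finset.sum_add_distrib, Finset.sum_ite_eq', Finset.mem_univ, if_true] at hsum
      omega
    · -- switch `T`
      obtain ⟨T1, hrel, hD1⟩ := switch B a b (r := i) (r' := i') (j := j) (k := k) hii
        hjk T (by omega) (by omega)
        (fun h => by
          by_contra h0
          exact hcase ⟨h, h0⟩)
        (fun h => by have := T'.2.2 i' h j; omega) D hD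
      rw [← hD1]
      apply ih
      have hpt : ∀ x : ι × κ, (T1.1 x - T'.1 x) + (if x = (i, j) then 1 else 0)
          + (if x = (i', k) then 1 else 0) ≤
          (T.1 x - T'.1 x) + (if x = (i, k) then 1 else 0) := by
        intro x
        have hx := congrFun hrel x
        simp only [Pi.add_apply, un, Pi.single_apply] at hx
        by_cases x1 : x = (i, j)
        · subst x1
          simp only [Prod.mk.injEq, hii, hjk, and_false, false_and, if_false, if_true, and_true,
            and_self] at hx ⊢
          omega
        · by_cases x2 : x = (i', k)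
          · subst x2
            simp only [Prod.mk.injEq, hii', hkj, and_false, false_and, if_false, if_true,
              and_true, and_self] at hx ⊢
            omega
          · by_cases x3 : x = (i, k)
            · subst x3
              simp only [Prod.mk.injEq, hii, hkj, and_false, false_and, if_false, if_true,
                and_true, and_self] at hx ⊢
              omega
            · by_cases x4 : x = (i', j)
              · subst x4
                simp only [Prod.mk.injEq, hii', hjk, and_false, false_and, if_false, if_true,
                  and_true, and_self] at hx ⊢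
                omega
              · simp only [x1, x2, x3, x4, if_false] at hx ⊢
                omega
      have hsum := Finset.sum_le_sum (fun x (_ : x ∈ (univ : Finset (ι × κ))) => hpt x)
      simp only [Finset.sum_add_distrib, Finset.sum_ite_eq', Finset.mem_univ, if_true] at hsum
      omega

end Vale.Agent.P328.H350
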