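import Vale.Agent.P328.Bdl.B1

/-!
# Mixed bosonic and fermionic operators, and the `gl_n` relations (helper350)

The cells are `ι × κ`; the cross-lines `i` with `B i` are fermionic, the others bosonic.
-/

set_option linter.all false

namespace Vale.Agent.P328.H350

open Finset Vale.Agent.P328

section Ops

variable {α : Type*} [DecidableEq α]

/-- weighted annihilation operator -/
noncomputable def annW (w : α → (α → ℕ) → ℝ) (x : α) : Module.End ℝ (Fock α) :=
  Finsupp.lsum ℝ (fun T : α → ℕ => (w x T) • Finsupp.lsingle (T - un x))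

/-- weighted creation operator -/
noncomputable def creW (w : α → (α → ℕ) → ℝ) (x : α) : Module.End ℝ (Fock α) :=
  Finsupp.lsum ℝ (fun T : α → ℕ => (w x (T + un x)) • Finsupp.lsingle (T + un x))

theorem annW_ket (w : α → (α → ℕ) → ℝ) (x : α) (T : α → ℕ) :
    annW w x (ket T) = (w x T) • ket (T - un x) := by
  simp [annW, ket]

theorem creW_ket (w : α → (α → ℕ) → ℝ) (x : α) (T : α → ℕ) :
    creW w x (ket T) = (w x (T + un x)) • ket (T + un x) := by
  simp [creW, ket]

theorem sub_add_swap {x y : α} (hxy : x ≠ y) (T : α → ℕ) :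
    T + un y - un x = T - un x + un y := by
  funext z
  simp only [Pi.sub_apply, Pi.add_apply, un, Pi.single_apply]
  split_ifs with hy hx
  · exact absurd (hx.symm.trans hy) hxy
  · simp
  · simp
  · simp

theorem sub_add_self {x : α} {T : α → ℕ} (h : T x ≠ 0) : T - un x + un x = T := by
  funext z
  simp only [Pi.sub_apply, Pi.add_apply, un, Pi.single_apply]
  split_ifs with hz
  · subst hz; omega
  · simp

theorem add_sub_self (x : α) (T : α → ℕ) : T + un x - un x = T := by
  funext z; simp

end Ops

section Mixed

variable {ι κ : Type*} [DecidableEq ι] [Fintype κ] [LinearOrder κ] (B : ι → Prop)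
  [DecidablePred B]

/-- the sign of a cross-line: `-1` for fermions -/
def eta (i : ι) : ℝ := if B i then -1 else 1

theorem eta_sq (i : ι) : eta B i * eta B i = 1 := by
  unfold eta; split_ifs <;> norm_num

/-- the modulus of the amplitude -/
noncomputable def vv (i : ι) (k : ℕ) : ℝ :=
  if B i then (if k % 2 = 1 then 1 else 0) else Real.sqrt k

theorem vv_zero (i : ι) : vv B i 0 = 0 := by
  unfold vv; split_ifs <;> simp_all

theorem vv_succ_sq (i : ι) (k : ℕ) :
    vv B i (k + 1) * vv B i (k + 1) = eta B i * (vv B i k * vv B i k) + 1 := by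
  unfold vv eta
  by_cases h : B i
  · simp only [h, if_true]
    rcases Nat.mod_two_eq_zero_or_one k with hk | hk
    · have : (k + 1) % 2 = 1 := by omega
      simp [this, hk]
    · have : (k + 1) % 2 = 0 := by omega
      simp [this, hk]
  · simp only [h, if_false]
    rw [Real.mul_self_sqrt (by positivity), Real.mul_self_sqrt (by positivity)]
    push_cast; ring

theorem vv_consec (i : ι) (k : ℕ) (h : B i) : vv B i k * vv B i (k + 1) = 0 := by
  unfold vv
  simp only [h, if_true]
  rcases Nat.mod_two_eq_zero_or_one k with hk | hk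
  · simp [hk]
  · have : (k + 1) % 2 = 0 := by omega
    simp [this]

/-- the Jordan-Wigner sign -/
noncomputable def sg (x : ι × κ) (T : ι × κ → ℕ) : ℝ :=
  eta B x.1 ^ (∑ l ∈ univ.filter (fun l => l < x.2), T (x.1, l))

theorem sg_sq (x : ι × κ) (T : ι × κ → ℕ) : sg B x T * sg B x T = 1 := by
  unfold sg
  rw [← mul_pow, eta_sq, one_pow]

/-- change of the sign of `x` when a particle is added at `y` -/
noncomputable def ff (x y : ι × κ) : ℝ := if x.1 = y.1 ∧ y.2 < x.2 then eta B x.1 else 1

theorem ff_sq (x y : ι × κ) : ff B x y * ff B x y = 1 := by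
  unfold ff; split_ifs
  · exact eta_sq B _
  · norm_num

theorem ff_self (x : ι × κ) : ff B x x = 1 := by
  unfold ff
  simp

theorem sg_add (x y : ι × κ) (T : ι × κ → ℕ) : sg B x (T + un y) = ff B x y * sg B x T := by
  unfold sg ff
  simp only [Pi.add_apply, Finset.sum_add_distrib, pow_add]
  have h : ∑ l ∈ univ.filter (fun l => l < x.2), (un y : ι × κ → ℕ) (x.1, l) =
      if x.1 = y.1 ∧ y.2 < x.2 then 1 else 0 := by
    split_ifs with hc
    · rw [Finset.sum_eq_single y.2]
      · have : (x.1, y.2) = y := Prod.ext hc.1 rfl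
        rw [this]; simp [un]
      · intro l _ hl
        have : (x.1, l) ≠ y := fun h => hl (by rw [← h])
        simp [un, Pi.single_apply, this]
      · intro h
        exact absurd (by simpa using hc.2) h
    · refine Finset.sum_eq_zero fun l hl => ?_
      have hl' : l < x.2 := by simpa using hl
      have : (x.1, l) ≠ y := by
        rintro rfl
        exact hc ⟨rfl, hl'⟩
      simp [un, Pi.single_apply, this]
  rw [h]
  split_ifs <;> simp [mul_comm]

theorem sg_sub {x y : ι × κ} {T : ι × κ → ℕ} (h : T y ≠ 0) :
    sg B x (T - un y) = ff B x y * sg B x T := by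
  have h1 := sg_add B x y (T - un y)
  rw [sub_add_self h] at h1
  rw [h1, ← mul_assoc, ff_sq, one_mul]

/-- the exchange sign -/
noncomputable def ep (i i' : ι) : ℝ := if i = i' then eta B i else 1

theorem ep_sq (i i' : ι) : ep B i i' * ep B i i' = 1 := by
  unfold ep; split_ifs
  · exact eta_sq B _
  · norm_num

theorem ep_comm (i i' : ι) : ep B i i' = ep B i' i := by
  unfold ep
  by_cases h : i = i'
  · subst h; rfl
  · rw [if_neg h, if_neg (fun h' => h h'.symm)]

theorem ff_swap {x y : ι × κ} (hxy : x ≠ y) : ff B x y = ep B x.1 y.1 * ff B y x := by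
  unfold ff ep
  by_cases h : x.1 = y.1
  · have hne : x.2 ≠ y.2 := fun h2 => hxy (Prod.ext h h2)
    rcases lt_or_gt_of_ne hne with hlt | hgt
    · have h1 : ¬ (x.1 = y.1 ∧ y.2 < x.2) := fun hc => lt_asymm hlt hc.2
      have h2 : y.1 = x.1 ∧ x.2 < y.2 := ⟨h.symm, hlt⟩
      rw [if_neg h1, if_pos h2, if_pos h, ← h, eta_sq]
    · have h1 : x.1 = y.1 ∧ y.2 < x.2 := ⟨h, hgt⟩
      have h2 : ¬ (y.1 = x.1 ∧ x.2 < y.2) := fun hc => lt_asymm hgt hc.2
      rw [if_pos h1, if_neg h2, if_pos h, mul_one]
  · have h1 : ¬ (x.1 = y.1 ∧ y.2 < x.2) := fun hc => h hc.1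
    have h2 : ¬ (y.1 = x.1 ∧ x.2 < y.2) := fun hc => h hc.1.symm
    rw [if_neg h1, if_neg h2, if_neg h, one_mul]

/-- the amplitude -/
noncomputable def ww (x : ι × κ) (T : ι × κ → ℕ) : ℝ := vv B x.1 (T x) * sg B x T

theorem ww_zero {x : ι × κ} {T : ι × κ → ℕ} (h : T x = 0) : ww B x T = 0 := by
  unfold ww
  rw [h, vv_zero, zero_mul]

theorem ww_sub {x y : ι × κ} (hxy : x ≠ y) {T : ι × κ → ℕ} (h : T y ≠ 0) :
    ww B x (T - un y) = ff B x y * ww B x T := by
  unfold ww
  have h1 : (T - un y) x = T x := by simp [un, hxy]
  rw [h1, sg_sub B h]; ring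

theorem ww_add {x y : ι × κ} (hxy : x ≠ y) (T : ι × κ → ℕ) :
    ww B x (T + un y) = ff B x y * ww B x T := by
  unfold ww
  have h1 : (T + un y) x = T x := by simp [un, hxy]
  rw [h1, sg_add B]; ring

theorem annW_comm (x y : ι × κ) : annW (ww B) x * annW (ww B) y =
    ep B x.1 y.1 • (annW (ww B) y * annW (ww B) x) := by
  apply end_ext
  intro T
  simp only [Module.End.mul_apply, LinearMap.smul_apply, annW_ket, map_smul, smul_smul]
  rw [tsub_right_comm]
  congr 1
  by_cases hxy : x = y
  · subst hxy
    by_cases hB : B x.1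
    · by_cases h0 : T x = 0
      · rw [ww_zero B h0]; ring
      · have h1 : ww B x T * ww B x (T - un x) = 0 := by
          unfold ww
          have h2 : (T - un x) x = T x - 1 := by simp [un]
          rw [h2]
          obtain ⟨k, hk⟩ := Nat.exists_eq_succ_of_ne_zero h0
          rw [hk]
          have h3 := vv_consec B x.1 k hB
          have : vv B x.1 k.succ * sg B x T * (vv B x.1 (k.succ - 1) * sg B x (T - un x)) =
            (vv B x.1 k * vv B x.1 (k + 1)) * (sg B x T * sg B x (T - un x)) := by
            simp only [Nat.succ_eq_add_one, Nat.add_sub_cancel]; ring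
          rw [this, h3, zero_mul]
        rw [h1, mul_zero]
    · have : ep B x.1 x.1 = 1 := by unfold ep eta; simp [hB]
      rw [this, one_mul]
  · by_cases hy0 : T y = 0
    · have h1 : (T - un x) y = 0 := by simp [un, hy0]
      rw [ww_zero B hy0, ww_zero B h1]; ring
    · by_cases hx0 : T x = 0
      · have h1 : (T - un y) x = 0 := by simp [un, hx0]
        rw [ww_zero B hx0, ww_zero B h1]; ring
      · rw [ww_sub B hxy hy0, ww_sub B (Ne.symm hxy) hx0, ff_swap B hxy]
        ring

theorem creW_comm (x y : ι × κ) : creW (ww B) x * creW (ww B) y =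
    ep B x.1 y.1 • (creW (ww B) y * creW (ww B) x) := by
  apply end_ext
  intro T
  simp only [Module.End.mul_apply, LinearMap.smul_apply, creW_ket, map_smul, smul_smul]
  rw [add_right_comm]
  congr 1
  by_cases hxy : x = y
  · subst hxy
    by_cases hB : B x.1
    · have h1 : ww B x (T + un x) * ww B x (T + un x + un x) = 0 := by
        unfold ww
        have h2 : (T + un x) x = T x + 1 := by simp [un]
        have h3 : (T + un x + un x) x = T x + 1 + 1 := by simp [un]
        rw [h2, h3]
        have h4 := vv_consec B x.1 (T x + 1) hB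
        have : vv B x.1 (T x + 1) * sg B x (T + un x) *
            (vv B x.1 (T x + 1 + 1) * sg B x (T + un x + un x)) =
          (vv B x.1 (T x + 1) * vv B x.1 (T x + 1 + 1)) *
            (sg B x (T + un x) * sg B x (T + un x + un x)) := by ring
        rw [this, h4, zero_mul]
      rw [h1, mul_zero]
    · have : ep B x.1 x.1 = 1 := by unfold ep eta; simp [hB]
      rw [this, one_mul]
  · have h1 : ww B x (T + un x + un y) = ff B x y * ww B x (T + un x) :=
      ww_add B hxy (T + un x)
    have h2 : ww B y (T + un x + un y) = ff B y x * ww B y (T + un y) := by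
      rw [add_right_comm]; exact ww_add B (Ne.symm hxy) (T + un y)
    rw [h1, h2, ff_swap B hxy]
    ring

theorem annW_creW (x y : ι × κ) : annW (ww B) x * creW (ww B) y =
    ep B x.1 y.1 • (creW (ww B) y * annW (ww B) x) + if x = y then 1 else 0 := by
  by_cases hxy : x = y
  · subst hxy
    rw [if_pos rfl]
    apply end_ext
    intro T
    simp only [Module.End.mul_apply, LinearMap.smul_apply, LinearMap.add_apply,
      Module.End.one_apply, annW_ket, creW_ket, map_smul, smul_smul]
    rw [add_sub_self]
    have hep : ep B x.1 x.1 = eta B x.1 := by unfold ep; simp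
    have h1 : ww B x (T + un x) * ww B x (T + un x) =
        eta B x.1 * (vv B x.1 (T x) * vv B x.1 (T x)) + 1 := by
      have h2 : (T + un x) x = T x + 1 := by simp [un]
      have h3 := sg_sq B x (T + un x)
      rw [← vv_succ_sq]
      unfold ww
      rw [h2]
      calc vv B x.1 (T x + 1) * sg B x (T + un x) * (vv B x.1 (T x + 1) * sg B x (T + un x))
          = (vv B x.1 (T x + 1) * vv B x.1 (T x + 1)) *
            (sg B x (T + un x) * sg B x (T + un x)) := by ring
        _ = _ := by rw [h3, mul_one]
    by_cases h0 : T x = 0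
    · rw [h1, ww_zero B h0, h0, vv_zero]
      simp
    · rw [sub_add_self h0, h1]
      have h4 : ww B x T * ww B x T = vv B x.1 (T x) * vv B x.1 (T x) := by
        unfold ww
        have h3 := sg_sq B x T
        calc vv B x.1 (T x) * sg B x T * (vv B x.1 (T x) * sg B x T)
            = (vv B x.1 (T x) * vv B x.1 (T x)) * (sg B x T * sg B x T) := by ring
          _ = _ := by rw [h3, mul_one]
      rw [h4, hep, add_smul, one_smul]
  · rw [if_neg hxy, add_zero]
    apply end_ext
    intro T
    simp only [Module.End.mul_apply, LinearMap.smul_apply, annW_ket, creW_ket, map_smul,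
      smul_smul]
    rw [sub_add_swap hxy]
    congr 1
    by_cases hx0 : T x = 0
    · have h1 : (T + un y) x = 0 := by simp [un, hxy, hx0]
      rw [ww_zero B hx0, ww_zero B h1]; ring
    · have hx1 : (T + un y) x ≠ 0 := by simp [un, hxy, hx0]
      have h2 : ww B y (T - un x + un y) = ff B y x * ww B y (T + un y) := by
        rw [← sub_add_swap hxy]
        exact ww_sub B (Ne.symm hxy) hx1
      rw [h2, ww_add B hxy T, ff_swap B hxy]
      ring

end Mixed

section Bilin

variable {R : Type*} [Ring R] [Algebra ℝ R] {ι κ : Type*} [DecidableEq ι] [DecidableEq κ]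

/-- the `gl_n` relations for bilinear expressions in operators with exchange signs -/
theorem bilinW_comm (S : Finset ι) (a b : ι × κ → R) (e : ι → ι → ℝ)
    (he : ∀ i i', e i i' * e i i' = 1) (hes : ∀ i i', e i i' = e i' i)
    (haa : ∀ x y, a x * a y = e x.1 y.1 • (a y * a x))
    (hbb : ∀ x y, b x * b y = e x.1 y.1 • (b y * b x))
    (hab : ∀ x y, a x * b y = e x.1 y.1 • (b y * a x) + if x = y then 1 else 0) (p q s t : κ) :
    bilin S a b p q * bilin S a b s t - bilin S a b s t * bilin S a b p q =
      (if q = s then bilin S a b p t else 0) - (if p = t then bilin S a b s q else 0) := by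
  have key : ∀ i i' : ι, (b (i, p) * a (i, q)) * (b (i', s) * a (i', t))
      - (b (i', s) * a (i', t)) * (b (i, p) * a (i, q)) =
      (if i = i' then (if q = s then b (i, p) * a (i, t) else 0) else 0)
        - (if i = i' then (if p = t then b (i, s) * a (i, q) else 0) else 0) := by
    intro i i'
    have h1 : (b (i, p) * a (i, q)) * (b (i', s) * a (i', t)) =
        b (i, p) * (a (i, q) * b (i', s)) * a (i', t) := by noncomm_ring
    have h2 : (b (i', s) * a (i', t)) * (b (i, p) * a (i, q)) =
        b (i', s) * (a (i', t) * b (i, p)) * a (i, q) := by noncomm_ring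
    rw [h1, h2, hab, hab]
    have h3 : b (i, p) * (e i i' • (b (i', s) * a (i, q)) + if (i, q) = (i', s) then 1 else 0) *
          a (i', t) =
        e i i' • ((b (i, p) * b (i', s)) * (a (i, q) * a (i', t))) +
          (b (i, p) * (if (i, q) = (i', s) then 1 else 0) * a (i', t)) := by
      rw [mul_add, add_mul, mul_smul_comm, smul_mul_assoc]
      congr 2
      noncomm_ring
    have h4 : b (i', s) * (e i' i • (b (i, p) * a (i', t)) + if (i', t) = (i, p) then 1 else 0) *
          a (i, q) =
        e i' i • ((b (i', s) * b (i, p)) * (a (i', t) * a (i, q))) +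
          (b (i', s) * (if (i', t) = (i, p) then 1 else 0) * a (i, q)) := by
      rw [mul_add, add_mul, mul_smul_comm, smul_mul_assoc]
      congr 2
      noncomm_ring
    have h5 : e i' i • ((b (i', s) * b (i, p)) * (a (i', t) * a (i, q))) =
        e i i' • ((b (i, p) * b (i', s)) * (a (i, q) * a (i', t))) := by
      rw [hbb (i', s) (i, p), haa (i', t) (i, q)]
      simp only [smul_mul_assoc, mul_smul_comm, smul_smul]
      congr 1
      rw [hes i' i, he, mul_one]
    dsimp only at h3 h4 h5 ⊢
    rw [h3, h4, h5]
    by_cases hi : i = i'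
    · subst hi
      by_cases hq : q = s
      · subst hq
        by_cases hp : p = t
        · subst hp; simp
        · have : ¬ t = p := fun h => hp h.symm
          simp [hp, this]
      · by_cases hp : p = t
        · subst hp; simp [hq]
        · have : ¬ t = p := fun h => hp h.symm
          simp [hp, hq, this]
    · have hi' : ¬ i' = i := fun h => hi h.symm
      simp [hi, hi']
  calc bilin S a b p q * bilin S a b s t - bilin S a b s t * bilin S a b p q
      = ∑ i ∈ S, ∑ i' ∈ S, ((b (i, p) * a (i, q)) * (b (i', s) * a (i', t))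
          - (b (i', s) * a (i', t)) * (b (i, p) * a (i, q))) := by
        unfold bilin
        rw [Finset.sum_mul_sum, Finset.sum_mul_sum, Finset.sum_comm (s := S) (t := S)
          (f := fun i' i => (b (i', s) * a (i', t)) * (b (i, p) * a (i, q))),
          ← Finset.sum_sub_distrib]
        refine Finset.sum_congr rfl fun i _ => ?_
        rw [← Finset.sum_sub_distrib]
    _ = ∑ i ∈ S, ∑ i' ∈ S, ((if i = i' then (if q = s then b (i, p) * a (i, t) else 0) else 0)
        - (if i = i' then (if p = t then b (i, s) * a (i, q) else 0) else 0)) := by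
        refine Finset.sum_congr rfl fun i _ => Finset.sum_congr rfl fun i' _ => key i i'
    _ = ∑ i ∈ S, ((if q = s then b (i, p) * a (i, t) else 0)
        - (if p = t then b (i, s) * a (i, q) else 0)) := by
        refine Finset.sum_congr rfl fun i hi => ?_
        simp only [Finset.sum_sub_distrib, Finset.sum_ite_eq, hi, if_true]
    _ = _ := by
        simp only [Finset.sum_sub_distrib]
        unfold bilin
        split_ifs <;> simp

end Bilin

end Vale.Agent.P328.H350
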