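import Vale.Agent.P328.H350.Ops

/-!
# The pair operators on mixed tables (helper350)
-/

set_option linter.all false

namespace Vale.Agent.P328.H350

open Finset Vale.Agent.P328

variable {ι κ : Type*} [Fintype ι] [DecidableEq ι] [Fintype κ] [LinearOrder κ] (B : ι → Prop)
  [DecidablePred B]

/-- the `gl` generators -/
noncomputable def EW (j k : κ) : Module.End ℝ (Fock (ι × κ)) :=
  bilin univ (fun x => annW (ww B) x) (fun x => creW (ww B) x) j k

theorem EW_isGL : IsGL (EW B : κ → κ → Module.End ℝ (Fock (ι × κ))) := by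
  intro a b c d
  exact bilinW_comm univ _ _ (ep B) (ep_sq B) (ep_comm B) (annW_comm B) (creW_comm B)
    (annW_creW B) a b c d

/-- matrix elements of `E j k` -/
noncomputable def mvW (j k : κ) (U T : ι × κ → ℕ) : ℝ := (EW B j k (ket T)) U

open scoped Classical in
theorem mvW_eq {j k : κ} (hjk : j ≠ k) (U T : ι × κ → ℕ) :
    mvW B j k U T = ∑ i, if U + un (i, k) = T + un (i, j) then
      ww B (i, k) T * ww B (i, j) U else 0 := by
  unfold mvW EW bilin
  rw [LinearMap.sum_apply, Finsupp.finsetSum_apply]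
  refine Finset.sum_congr rfl fun i _ => ?_
  have hne : ((i, j) : ι × κ) ≠ (i, k) := by
    intro h
    simp only [Prod.mk.injEq, true_and] at h
    exact hjk h
  rw [Module.End.mul_apply, annW_ket, map_smul, creW_ket, smul_smul, Finsupp.smul_apply,
    Finsupp.single_apply]
  by_cases h0 : T (i, k) = 0
  · simp [ww_zero B h0]
  · by_cases hU : T - un (i, k) + un (i, j) = U
    · have hc : U + un (i, k) = T + un (i, j) := by
        rw [← hU]
        funext x
        simp only [Pi.sub_apply, Pi.add_apply, un, Pi.single_apply]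
        split_ifs with h2 h3 h3
        · exact absurd (h3.symm.trans h2) hne
        · subst h2; omega
        · omega
        · omega
      rw [if_pos hU, if_pos hc, hU, smul_eq_mul, mul_one]
    · have hc : ¬ (U + un (i, k) = T + un (i, j)) := by
        intro hc
        apply hU
        funext x
        have hx := congrFun hc x
        simp only [Pi.sub_apply, Pi.add_apply, un, Pi.single_apply] at hx ⊢
        split_ifs at hx ⊢ with h2 h3 h3
        · exact absurd (h3.symm.trans h2) hne
        · omega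
        · omega
        · omega
      rw [if_neg hU, if_neg hc]
      simp

theorem mvW_symm {j k : κ} (hjk : j ≠ k) (U T : ι × κ → ℕ) :
    mvW B j k U T = mvW B k j T U := by
  rw [mvW_eq B hjk, mvW_eq B hjk.symm]
  refine Finset.sum_congr rfl fun i _ => ?_
  by_cases h : U + un (i, k) = T + un (i, j)
  · rw [if_pos h, if_pos h.symm, mul_comm]
  · rw [if_neg h, if_neg (fun h' => h h'.symm)]

theorem mvW_ne_zero {j k : κ} (hjk : j ≠ k) {U T : ι × κ → ℕ}
    (h : mvW B j k U T ≠ 0) : ∃ i, U + un (i, k) = T + un (i, j) ∧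
      ww B (i, k) T ≠ 0 ∧ ww B (i, j) U ≠ 0 := by
  rw [mvW_eq B hjk] at h
  obtain ⟨i, hi, hne⟩ := Finset.exists_ne_zero_of_sum_ne_zero h
  refine ⟨i, ?_⟩
  by_cases hc : U + un (i, k) = T + un (i, j)
  · rw [if_pos hc] at hne
    exact ⟨hc, left_ne_zero_of_mul hne, right_ne_zero_of_mul hne⟩
  · rw [if_neg hc] at hne
    exact absurd rfl hne

/-- if the move in row `a` is possible, it is the only one -/
theorem mvW_single {j k : κ} (hjk : j ≠ k) {U T : ι × κ → ℕ} {a : ι}
    (h : U + un (a, k) = T + un (a, j)) :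
    mvW B j k U T = ww B (a, k) T * ww B (a, j) U := by
  rw [mvW_eq B hjk, Finset.sum_eq_single a]
  · rw [if_pos h]
  · intro a' _ ha
    rw [if_neg]
    intro h'
    have h1 := congrFun h (a, j)
    have h2 := congrFun h' (a, j)
    simp only [Pi.add_apply, un, Pi.single_apply, Prod.mk.injEq, true_and, hjk, if_false,
      if_true, and_true, (Ne.symm ha), false_and] at h1 h2
    omega
  · intro h'; exact absurd (Finset.mem_univ a) h'

/-- matrix elements of the pair operator -/
noncomputable def KKW (p : κ × κ) (T T' : ι × κ → ℕ) : ℝ :=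
  (pairOp (EW B) p (ket T')) T

theorem KKW_eq {p : κ × κ} (hp : p.1 ≠ p.2) (T T' : ι × κ → ℕ) :
    KKW B p T T' = ∑ U ∈ (EW B p.1 p.2 (ket T')).support,
      mvW B p.1 p.2 U T' * mvW B p.1 p.2 U T := by
  unfold KKW pairOp
  rw [Module.End.mul_apply, end_apply]
  refine Finset.sum_congr rfl fun U _ => ?_
  have : (EW B p.2 p.1 (ket U)) T = mvW B p.1 p.2 U T := by
    rw [mvW_symm B hp U T]; rfl
  rw [this]; rfl

theorem KKW_symm {p : κ × κ} (hp : p.1 ≠ p.2) (T T' : ι × κ → ℕ) :
    KKW B p T T' = KKW B p T' T := by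
  classical
  rw [KKW_eq B hp, KKW_eq B hp]
  have h1 : ∑ U ∈ (EW B p.1 p.2 (ket T')).support, mvW B p.1 p.2 U T' * mvW B p.1 p.2 U T =
      ∑ U ∈ (EW B p.1 p.2 (ket T')).support ∪ (EW B p.1 p.2 (ket T)).support,
        mvW B p.1 p.2 U T' * mvW B p.1 p.2 U T := by
    refine Finset.sum_subset subset_union_left fun U _ hU => ?_
    have : mvW B p.1 p.2 U T' = 0 := by
      simpa [mvW] using hU
    rw [this, zero_mul]
  have h2 : ∑ U ∈ (EW B p.1 p.2 (ket T)).support, mvW B p.1 p.2 U T * mvW B p.1 p.2 U T' =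
      ∑ U ∈ (EW B p.1 p.2 (ket T')).support ∪ (EW B p.1 p.2 (ket T)).support,
        mvW B p.1 p.2 U T * mvW B p.1 p.2 U T' := by
    refine Finset.sum_subset subset_union_right fun U _ hU => ?_
    have : mvW B p.1 p.2 U T = 0 := by
      simpa [mvW] using hU
    rw [this, zero_mul]
  rw [h1, h2]
  exact Finset.sum_congr rfl fun U _ => mul_comm _ _

/-- the capacities: at most one particle in each cell of a fermionic row -/
def Cap (T : ι × κ → ℕ) : Prop := ∀ i, B i → ∀ j, T (i, j) ≤ 1

theorem cap_of_move {j k : κ} (hjk : j ≠ k) {U T : ι × κ → ℕ} {i : ι}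
    (h : U + un (i, k) = T + un (i, j)) (hU : ww B (i, j) U ≠ 0) (hT : Cap B T) : Cap B U := by
  intro a ha l
  have h1 := congrFun h (a, l)
  simp only [Pi.add_apply, un, Pi.single_apply] at h1
  have h2 := hT a ha l
  by_cases hc : ((a, l) : ι × κ) = (i, j)
  · have ha' : a = i := congrArg Prod.fst hc
    have hl : l = j := congrArg Prod.snd hc
    subst ha'; subst hl
    have hodd : U (a, l) % 2 = 1 := by
      by_contra hne
      apply hU
      unfold ww vv
      simp [ha, hne]
    have hne : ¬ ((a, l) : ι × κ) = (a, k) := by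
      intro h'
      simp only [Prod.mk.injEq, true_and] at h'
      exact hjk h'
    rw [if_neg hne, if_pos rfl] at h1
    omega
  · rw [if_neg hc] at h1
    omega

theorem KKW_ne_zero {p : κ × κ} (hp : p.1 ≠ p.2) {T T' : ι × κ → ℕ}
    (h : KKW B p T T' ≠ 0) : (∃ i i' : ι,
      T + un (i', p.1) + un (i, p.2) = T' + un (i, p.1) + un (i', p.2)) ∧
      (Cap B T' → Cap B T) := by
  rw [KKW_eq B hp] at h
  obtain ⟨U, _, hne⟩ := Finset.exists_ne_zero_of_sum_ne_zero h
  obtain ⟨i, h1, h1a, h1b⟩ := mvW_ne_zero B hp (left_ne_zero_of_mul hne)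
  obtain ⟨i', h2, h2a, h2b⟩ := mvW_ne_zero B hp (right_ne_zero_of_mul hne)
  refine ⟨⟨i, i', ?_⟩, fun hc => ?_⟩
  · rw [← h1, ← h2]
    abel
  · have hU := cap_of_move B hp h1 h1b hc
    exact cap_of_move B hp.symm h2.symm h2a hU

/-- if the two moves are possible, the matrix element is their product -/
theorem KKW_single {i i' : ι} {j k : κ} (hii : i ≠ i') (hjk : j ≠ k) {T T1 U : ι × κ → ℕ}
    (h1 : U + un (i', k) = T + un (i', j)) (h2 : U + un (i, k) = T1 + un (i, j)) :
    KKW B (j, k) T1 T = (ww B (i', k) T * ww B (i', j) U) * (ww B (i, k) T1 * ww B (i, j) U) := by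
  rw [KKW_eq B (p := (j, k)) hjk, Finset.sum_eq_single U]
  · rw [mvW_single B hjk h1, mvW_single B hjk h2]
  · intro V _ hV
    by_contra hne
    obtain ⟨a, h3, _, _⟩ := mvW_ne_zero B hjk (left_ne_zero_of_mul hne)
    obtain ⟨b, h4, _, _⟩ := mvW_ne_zero B hjk (right_ne_zero_of_mul hne)
    apply hV
    have hkj : ¬ k = j := fun h => hjk h.symm
    have hii' : ¬ i' = i := fun h => hii h.symm
    have e1 := congrFun h1 (i, k)
    have e2 := congrFun h2 (i, k)
    have e3 := congrFun h3 (i, k)
    have e4 := congrFun h4 (i, k)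
    simp only [Pi.add_apply, un, Pi.single_apply, Prod.mk.injEq, hkj, hii, and_false, and_true,
      if_false, if_true, true_and] at e1 e2 e3 e4
    have hb : i = b ∧ i ≠ a := by
      by_cases hb : i = b
      · refine ⟨hb, fun ha => ?_⟩
        rw [if_pos ha] at e3
        rw [if_pos hb] at e4
        omega
      · exfalso
        rw [if_neg hb] at e4
        omega
    have f1 := congrFun h1 (i', k)
    have f2 := congrFun h2 (i', k)
    have f3 := congrFun h3 (i', k)
    have f4 := congrFun h4 (i', k)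
    have hib : ¬ i' = b := by rw [← hb.1]; exact hii'
    simp only [Pi.add_apply, un, Pi.single_apply, Prod.mk.injEq, hkj, hii', hib, and_false,
      and_true, if_false, if_true, true_and] at f1 f2 f3 f4
    have ha : i' = a := by
      by_contra ha
      rw [if_neg ha] at f3
      omega
    rw [← ha, ← h1] at h3
    exact add_right_cancel h3
  · intro hU
    have : mvW B j k U T = 0 := by
      simpa [mvW] using hU
    rw [this, zero_mul]

section Omega

variable (a : ι → ℕ) (b : κ → ℕ)

/-- mixed tables, uncurried -/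
def PM (T : ι × κ → ℕ) : Prop := Marg (Equiv.refl (ι × κ)) a b T ∧ Cap B T

/-- the pair operator as a matrix on the mixed tables -/
noncomputable def KmatW (p : κ × κ) : Matrix {T // PM B a b T} {T // PM B a b T} ℝ :=
  fun T T' => KKW B p T.1 T'.1

theorem KmatW_symm {p : κ × κ} (hp : p.1 < p.2) (T T' : {T // PM B a b T}) :
    KmatW B a b p T T' = KmatW B a b p T' T := KKW_symm B hp.ne _ _

theorem KmatW_supp {p : κ × κ} (hp : p.1 < p.2) {T T' : {T // PM B a b T}}
    (h : KmatW B a b p T T' ≠ 0) (x : ι × κ) (h1 : x.2 ≠ p.1) (h2 : x.2 ≠ p.2) :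
    T.1 x = T'.1 x := by
  obtain ⟨⟨i, i', hr⟩, _⟩ := KKW_ne_zero B hp.ne h
  have h3 := congrFun hr x
  have n : ∀ (r : ι) (l : κ), x.2 ≠ l → (un ((r, l) : ι × κ) : ι × κ → ℕ) x = 0 := by
    intro r l hl
    have : x ≠ (r, l) := fun h => hl (by rw [h])
    simp [un, Pi.single_apply, this]
  simpa [n _ _ h1, n _ _ h2] using h3

theorem KmatW_mul [Fintype {T // PM B a b T}] {p q : κ × κ} (hq : q.1 < q.2)
    (T T'' : {T // PM B a b T}) :
    (KmatW B a b p * KmatW B a b q) T T'' =
      ((pairOp (EW B) p * pairOp (EW B) q) (ket T''.1)) T.1 := by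
  classical
  rw [Matrix.mul_apply, Module.End.mul_apply, end_apply]
  have hsub : ((pairOp (EW B) q) (ket T''.1)).support ⊆
      (univ : Finset {T // PM B a b T}).map (Function.Embedding.subtype (PM B a b)) := by
    intro U hU
    rw [Finsupp.mem_support_iff] at hU
    obtain ⟨⟨i, i', h1⟩, h2⟩ := KKW_ne_zero B hq.ne hU
    have : PM B a b U := ⟨marg_of_rel (Equiv.refl (ι × κ)) h1 T''.2.1, h2 T''.2.2⟩
    simp only [Finset.mem_map, Finset.mem_univ, true_and, Function.Embedding.subtype_apply]
    exact ⟨⟨U, this⟩, rfl⟩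
  rw [Finset.sum_subset hsub (f := fun U => ((pairOp (EW B) q) (ket T''.1)) U *
    ((pairOp (EW B) p) (ket U)) T.1)]
  · rw [Finset.sum_map]
    refine Finset.sum_congr rfl fun U _ => ?_
    simp only [KmatW, KKW, Function.Embedding.subtype_apply]
    rw [mul_comm]
  · intro U _ hU
    have : ((pairOp (EW B) q) (ket T''.1)) U = 0 := by simpa using hU
    rw [this, zero_mul]

theorem KmatW_comm [Fintype {T // PM B a b T}] {p : κ × κ} (hp : p.1 < p.2) :
    (∑ q ∈ incPairs κ, KmatW B a b q) * KmatW B a b p =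
      KmatW B a b p * ∑ q ∈ incPairs κ, KmatW B a b q := by
  ext T T''
  rw [Finset.sum_mul, Finset.mul_sum, Matrix.sum_apply, Matrix.sum_apply]
  have h1 : ∑ q ∈ incPairs κ, (KmatW B a b q * KmatW B a b p) T T'' =
      (((∑ q ∈ incPairs κ, pairOp (EW B) q) * pairOp (EW B) p) (ket T''.1)) T.1 := by
    rw [Finset.sum_mul, LinearMap.sum_apply, Finsupp.finsetSum_apply]
    refine Finset.sum_congr rfl fun q _ => ?_
    exact KmatW_mul B a b hp T T''
  have h2 : ∑ q ∈ incPairs κ, (KmatW B a b p * KmatW B a b q) T T'' =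
      ((pairOp (EW B) p * (∑ q ∈ incPairs κ, pairOp (EW B) q)) (ket T''.1)) T.1 := by
    rw [Finset.mul_sum, LinearMap.sum_apply, Finsupp.finsetSum_apply]
    refine Finset.sum_congr rfl fun q hq => ?_
    have hq' : q.1 < q.2 := by simpa [incPairs] using hq
    exact KmatW_mul B a b hq' T T''
  rw [h1, h2]
  have h3 := (two_sum_pair_comm (EW_isGL (ι := ι) B) p).eq
  rw [add_mul, mul_add] at h3
  have h4 := congrArg (fun A : Module.End ℝ (Fock (ι × κ)) => (A (ket T''.1)) T.1) h3
  simp only [LinearMap.add_apply, Finsupp.add_apply] at h4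
  linarith

end Omega

end Vale.Agent.P328.H350
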