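import Vale.Agent.P328.H350.Cols

/-!
# Tensorization over pairs of rows inside two columns, for mixed tables (helper350)
-/

set_option linter.all false

namespace Vale.Agent.P328.H350

open Finset Vale.Agent.P328 Vale.Agent.P328.Alg

section Raw

variable {m n : ℕ} (j k : Fin n) (D : Fin m → ℕ)

/-- two columns of a table, reduced by `D` -/
def fwdF (X : Fin m → Fin n → ℕ) : Fin m → Fin 2 → ℕ :=
  fun i b => (if b = 0 then X i j else X i k) - D i

/-- insertion of two columns -/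
def bwdF (X0 : Fin m → Fin n → ℕ) (Z : Fin m → Fin 2 → ℕ) : Fin m → Fin n → ℕ :=
  fun i l => if l = j then Z i 0 + D i else if l = k then Z i 1 + D i else X0 i l

theorem sum_red (f d : Fin m → ℕ) (h : ∀ i, d i ≤ f i) :
    ∑ i, (f i - d i) + ∑ i, d i = ∑ i, f i := by
  rw [← Finset.sum_add_distrib]
  exact Finset.sum_congr rfl fun i _ => Nat.sub_add_cancel (h i)

theorem fwdF_zero (X : Fin m → Fin n → ℕ) (i : Fin m) : fwdF j k D X i 0 = X i j - D i := by
  simp [fwdF]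

theorem fwdF_one (X : Fin m → Fin n → ℕ) (i : Fin m) : fwdF j k D X i 1 = X i k - D i := by
  simp [fwdF]

theorem fin_two (b : Fin 2) : b = 0 ∨ b = 1 := by
  have := b.isLt
  rcases (show b.val = 0 ∨ b.val = 1 by omega) with h0 | h0
  · exact Or.inl (Fin.ext h0)
  · exact Or.inr (Fin.ext h0)

theorem fwdF_row {X : Fin m → Fin n → ℕ} {i : Fin m} {s : ℕ} (h1 : D i ≤ X i j)
    (h2 : D i ≤ X i k) (h3 : X i j + X i k = s) : ∑ b, fwdF j k D X i b = s - 2 * D i := by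
  rw [Fin.sum_univ_two, fwdF_zero, fwdF_one]
  omega

theorem fwdF_col {X X0 : Fin m → Fin n → ℕ} (h1 : ∀ i, D i ≤ X i j ∧ D i ≤ X i k)
    (h2 : ∀ i, D i ≤ X0 i j ∧ D i ≤ X0 i k) (h3 : ∀ l, ∑ i, X i l = ∑ i, X0 i l) (b : Fin 2) :
    ∑ i, fwdF j k D X i b = ∑ i, fwdF j k D X0 i b := by
  rcases fin_two b with rfl | rfl
  · simp only [fwdF_zero]
    have e1 := sum_red (fun i => X i j) D (fun i => (h1 i).1)
    have e2 := sum_red (fun i => X0 i j) D (fun i => (h2 i).1)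
    have e3 := h3 j
    omega
  · simp only [fwdF_one]
    have e1 := sum_red (fun i => X i k) D (fun i => (h1 i).2)
    have e2 := sum_red (fun i => X0 i k) D (fun i => (h2 i).2)
    have e3 := h3 k
    omega

theorem bwdF_j (X0 : Fin m → Fin n → ℕ) (Z : Fin m → Fin 2 → ℕ) (i : Fin m) :
    bwdF j k D X0 Z i j = Z i 0 + D i := by
  simp [bwdF]

theorem bwdF_k {j k : Fin n} (hjk : j ≠ k) (D : Fin m → ℕ) (X0 : Fin m → Fin n → ℕ)
    (Z : Fin m → Fin 2 → ℕ) (i : Fin m) :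
    bwdF j k D X0 Z i k = Z i 1 + D i := by
  simp [bwdF, hjk.symm]

theorem bwdF_other {X0 : Fin m → Fin n → ℕ} {Z : Fin m → Fin 2 → ℕ} {i : Fin m} {l : Fin n}
    (h1 : l ≠ j) (h2 : l ≠ k) : bwdF j k D X0 Z i l = X0 i l := by
  simp [bwdF, h1, h2]

theorem bwdF_row {j k : Fin n} (hjk : j ≠ k) (D : Fin m → ℕ) {X0 : Fin m → Fin n → ℕ}
    {Z : Fin m → Fin 2 → ℕ} (i : Fin m) (h1 : D i ≤ X0 i j) (h2 : D i ≤ X0 i k)
    (hZ : ∑ b, Z i b = X0 i j + X0 i k - 2 * D i) :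
    ∑ l, bwdF j k D X0 Z i l = ∑ l, X0 i l := by
  rw [Fin.sum_univ_two] at hZ
  apply sum_eq_of_pair hjk
  · rw [bwdF_j, bwdF_k hjk]
    omega
  · intro l h3 h4
    exact bwdF_other j k D h3 h4

theorem bwdF_col {j k : Fin n} (hjk : j ≠ k) (D : Fin m → ℕ) {X0 : Fin m → Fin n → ℕ}
    {Z : Fin m → Fin 2 → ℕ} (h2 : ∀ i, D i ≤ X0 i j ∧ D i ≤ X0 i k)
    (hZ : ∀ b, ∑ i, Z i b = ∑ i, fwdF j k D X0 i b) (l : Fin n) :
    ∑ i, bwdF j k D X0 Z i l = ∑ i, X0 i l := by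
  by_cases h1 : l = j
  · subst h1
    simp only [bwdF_j]
    rw [Finset.sum_add_distrib, hZ 0]
    simp only [fwdF_zero]
    exact sum_red (fun i => X0 i l) D (fun i => (h2 i).1)
  · by_cases h3 : l = k
    · subst h3
      simp only [bwdF_k hjk]
      rw [Finset.sum_add_distrib, hZ 1]
      simp only [fwdF_one]
      exact sum_red (fun i => X0 i l) D (fun i => (h2 i).2)
    · exact Finset.sum_congr rfl fun i _ => bwdF_other j k D h1 h3

/-- rows that are forced to be `(1, 1)` -/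
def dF (B : Finset (Fin m)) (X0 : Fin m → Fin n → ℕ) (i : Fin m) : ℕ :=
  if i ∈ B ∧ X0 i j + X0 i k = 2 then 1 else 0

theorem dF_le {B : Finset (Fin m)} {X0 X : Fin m → Fin n → ℕ} {i : Fin m}
    (hc : i ∈ B → ∀ l, X i l ≤ 1) (hs : X i j + X i k = X0 i j + X0 i k) :
    dF j k B X0 i ≤ X i j ∧ dF j k B X0 i ≤ X i k := by
  unfold dF
  split_ifs with h
  · have h2 := hc h.1 j
    have h3 := hc h.1 k
    omega
  · omega

theorem bwdF_cap {j k : Fin n} {B : Finset (Fin m)} {X0 : Fin m → Fin n → ℕ}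
    {Z : Fin m → Fin 2 → ℕ} {i : Fin m} (hi : i ∈ B) (hc : ∀ l, X0 i l ≤ 1)
    (hZ : ∑ b, Z i b = X0 i j + X0 i k - 2 * dF j k B X0 i) (l : Fin n) :
    bwdF j k (dF j k B X0) X0 Z i l ≤ 1 := by
  rw [Fin.sum_univ_two] at hZ
  have h5 := hc j
  have h6 := hc k
  have h7 : dF j k B X0 i = if X0 i j + X0 i k = 2 then 1 else 0 := by
    unfold dF; simp [hi]
  unfold bwdF
  have h9 := hc l
  by_cases h8 : X0 i j + X0 i k = 2
  · rw [if_pos h8] at h7
    rw [h7] at hZ ⊢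
    split_ifs <;> omega
  · rw [if_neg h8] at h7
    rw [h7] at hZ ⊢
    split_ifs <;> omega

end Raw

section Class

variable {m n : ℕ} {B : Finset (Fin m)} {r : Fin m → ℕ} {c : Fin n → ℕ} (j k : Fin n)
  (x0 : OmegaB B r c)

/-- rows that are forced to be `(1, 1)` -/
abbrev dl : Fin m → ℕ := dF j k B x0.1

/-- reduced row sums -/
def rt (i : Fin m) : ℕ := x0.1 i j + x0.1 i k - 2 * dl j k x0 i

/-- reduced column sums -/
def ct (b : Fin 2) : ℕ := ∑ i, fwdF j k (dl j k x0) x0.1 i b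

variable {j k x0}

theorem pair_sum (hjk : j ≠ k) (x : {x // colSB B r c j k x0 x}) (i : Fin m) :
    x.1.1 i j + x.1.1 i k = x0.1 i j + x0.1 i k :=
  pair_eq_of_sum_eq (f := fun l => x.1.1 i l) (g := fun l => x0.1 i l) hjk
    ((x.1.2.1.1 i).trans (x0.2.1.1 i).symm) fun l h1 h2 => (x.2 i l h1 h2).symm

theorem dl_le (hjk : j ≠ k) (x : {x // colSB B r c j k x0 x}) (i : Fin m) :
    dl j k x0 i ≤ x.1.1 i j ∧ dl j k x0 i ≤ x.1.1 i k :=
  dF_le j k (fun hi l => x.1.2.2 i hi l) (pair_sum hjk x i)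

theorem dl_le0 (i : Fin m) : dl j k x0 i ≤ x0.1 i j ∧ dl j k x0 i ≤ x0.1 i k :=
  dF_le j k (fun hi l => x0.2.2 i hi l) rfl

/-- a table in the class of `x0`, as a two-column table -/
def toT (hjk : j ≠ k) (x : {x // colSB B r c j k x0 x}) : Tables (rt j k x0) (ct j k x0) :=
  ⟨fwdF j k (dl j k x0) x.1.1,
    fun i => fwdF_row j k (dl j k x0) (dl_le hjk x i).1 (dl_le hjk x i).2 (pair_sum hjk x i),
    fun b => fwdF_col j k (dl j k x0) (dl_le hjk x) dl_le0
      (fun l => (x.1.2.1.2 l).trans (x0.2.1.2 l).symm) b⟩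

/-- a two-column table, as a table in the class of `x0` -/
def ofT (hjk : j ≠ k) (Z : Tables (rt j k x0) (ct j k x0)) : {x // colSB B r c j k x0 x} :=
  ⟨⟨bwdF j k (dl j k x0) x0.1 Z.1,
    ⟨fun i => (bwdF_row hjk (dl j k x0) i (dl_le0 i).1 (dl_le0 i).2 (Z.2.1 i)).trans (x0.2.1.1 i),
      fun l => (bwdF_col hjk (dl j k x0) dl_le0 Z.2.2 l).trans (x0.2.1.2 l)⟩,
    fun i hi l => bwdF_cap hi (x0.2.2 i hi) (Z.2.1 i) l⟩,
    fun _ _ h1 h2 => (bwdF_other j k (dl j k x0) h1 h2).symm⟩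

theorem ofT_toT (hjk : j ≠ k) (x : {x // colSB B r c j k x0 x}) : ofT hjk (toT hjk x) = x := by
  apply Subtype.ext
  apply Subtype.ext
  funext i l
  show bwdF j k (dl j k x0) x0.1 (fwdF j k (dl j k x0) x.1.1) i l = x.1.1 i l
  have h2 := dl_le hjk x i
  by_cases h1 : l = j
  · subst h1
    rw [bwdF_j, fwdF_zero]
    omega
  · by_cases h3 : l = k
    · subst h3
      rw [bwdF_k hjk, fwdF_one]
      omega
    · rw [bwdF_other j k _ h1 h3]
      exact x.2 i l h1 h3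

theorem toT_ofT (hjk : j ≠ k) (Z : Tables (rt j k x0) (ct j k x0)) : toT hjk (ofT hjk Z) = Z := by
  apply Subtype.ext
  funext i b
  show fwdF j k (dl j k x0) (bwdF j k (dl j k x0) x0.1 Z.1) i b = Z.1 i b
  rcases fin_two b with rfl | rfl
  · rw [fwdF_zero, bwdF_j]
    omega
  · rw [fwdF_one, bwdF_k hjk]
    omega

/-- the class of `x0` is a set of two-column tables -/
def clsEquiv (hjk : j ≠ k) :
    {x // colSB B r c j k x0 x} ≃ Tables (rt j k x0) (ct j k x0) where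
  toFun := toT hjk
  invFun := ofT hjk
  left_inv := ofT_toT hjk
  right_inv := toT_ofT hjk

theorem clsEquiv_val0 (hjk : j ≠ k) (x : {x // colSB B r c j k x0 x}) (i : Fin m) :
    (clsEquiv hjk x).1 i 0 = x.1.1 i j - dl j k x0 i := fwdF_zero j k _ _ _

theorem clsEquiv_val1 (hjk : j ≠ k) (x : {x // colSB B r c j k x0 x}) (i : Fin m) :
    (clsEquiv hjk x).1 i 1 = x.1.1 i k - dl j k x0 i := fwdF_one j k _ _ _

theorem box_iff (hjk : j ≠ k) (i i' : Fin m) (x y : {x // colSB B r c j k x0 x}) :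
    ((boxSB B r c i i' j k).comap Subtype.val) x y ↔
      boxSetoid (rt j k x0) (ct j k x0) i i' 0 1 (clsEquiv hjk x) (clsEquiv hjk y) := by
  constructor
  · intro h a b hab
    have ha : ¬ (a = i ∨ a = i') := fun h' => hab ⟨h', fin_two b⟩
    have h1 : ∀ l, x.1.1 a l = y.1.1 a l := fun l => h a l (fun h' => ha h'.1)
    show (if b = 0 then x.1.1 a j else x.1.1 a k) - dl j k x0 a =
      (if b = 0 then y.1.1 a j else y.1.1 a k) - dl j k x0 a
    rw [h1, h1]
  · intro h a l hal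
    show x.1.1 a l = y.1.1 a l
    by_cases h1 : l = j
    · subst h1
      have ha : ¬ (a = i ∨ a = i') := fun h' => hal ⟨h', Or.inl rfl⟩
      have h2 := h a 0 (fun h' => ha h'.1)
      rw [clsEquiv_val0, clsEquiv_val0] at h2
      have h3 := dl_le hjk x a
      have h4 := dl_le hjk y a
      omega
    · by_cases h2 : l = k
      · subst h2
        have ha : ¬ (a = i ∨ a = i') := fun h' => hal ⟨h', Or.inr rfl⟩
        have h2 := h a 1 (fun h' => ha h'.1)
        rw [clsEquiv_val1, clsEquiv_val1] at h2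
        have h3 := dl_le hjk x a
        have h4 := dl_le hjk y a
        omega
      · exact (x.2 a l h1 h2).symm.trans (y.2 a l h1 h2)

end Class

theorem sum_transport_gen {Ω Ω' : Type*} [Fintype Ω] [Fintype Ω'] (φ : Ω ≃ Ω') (s : Setoid Ω)
    (s' : Setoid Ω') (h : ∀ x y, s x y ↔ s' (φ x) (φ y)) (F : Ω → ℝ) :
    ∑ x, (F x - avg s F x) ^ 2 = ∑ y, ((F ∘ φ.symm) y - avg s' (F ∘ φ.symm) y) ^ 2 := by
  rw [← Equiv.sum_comp φ]
  refine Finset.sum_congr rfl fun x _ => ?_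
  rw [avg_equiv φ s s' h F x]
  simp

theorem sum_pair_two (f : {p : Fin 2 × Fin 2 // p.1 < p.2} → ℝ) :
    ∑ p, f p = f ⟨(0, 1), by decide⟩ := by
  refine Fintype.sum_eq_single _ ?_
  rintro ⟨⟨u, v⟩, h⟩ hne
  exfalso
  apply hne
  apply Subtype.ext
  have h1 := u.isLt
  have h2 := v.isLt
  have h3 : u.val < v.val := h
  refine Prod.ext (Fin.ext ?_) (Fin.ext ?_)
  · show u.val = 0
    omega
  · show v.val = 1
    omega

section Tables

variable {m n : ℕ} (B : Finset (Fin m)) (r : Fin m → ℕ) (c : Fin n → ℕ)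

/-- second step: pairs of rows inside two columns -/
theorem rows_ineqB {j k : Fin n} (hjk : j ≠ k) (F : OmegaB B r c → ℝ) :
    ∑ x, (F x - avg (colSB B r c j k) F x) ^ 2 ≤
      ∑ q : {q : Fin m × Fin m // q.1 < q.2},
        ∑ x, (F x - avg (boxSB B r c q.1.1 q.1.2 j k) F x) ^ 2 := by
  have hts : ∀ (q : {q : Fin m × Fin m // q.1 < q.2}) (x y : OmegaB B r c),
      boxSB B r c q.1.1 q.1.2 j k x y → colSB B r c j k x y := by
    intro q x y h
    have h' : RM.SameOff q.1.1 q.1.2 j k x.1 y.1 := h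
    show ∀ a b, b ≠ j → b ≠ k → x.1 a b = y.1 a b
    intro a l h1 h2
    exact h' a l (fun h'' => h''.2.elim h1 h2)
  have hloc : ∀ x0 : OmegaB B r c, ∀ _ : Fintype {x // colSB B r c j k x0 x},
      ∀ G : {x // colSB B r c j k x0 x} → ℝ,
      ∑ x, (G x - avg ⊤ G x) ^ 2 ≤ ∑ q : {q : Fin m × Fin m // q.1 < q.2},
        ∑ x, (G x - avg ((boxSB B r c q.1.1 q.1.2 j k).comap Subtype.val) G x) ^ 2 := by
    intro x0 inst G
    have h := variance_box (rt j k x0) (ct j k x0) (G ∘ (clsEquiv hjk).symm)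
    rw [sum_pair_two] at h
    rw [sum_transport_gen (clsEquiv (x0 := x0) hjk) ⊤ ⊤ (fun _ _ => Iff.rfl) G]
    refine h.trans (le_of_eq ?_)
    refine Finset.sum_congr rfl fun q _ => ?_
    rw [sum_transport_gen (clsEquiv (x0 := x0) hjk)
      ((boxSB B r c q.1.1 q.1.2 j k).comap Subtype.val)
      (boxSetoid (rt j k x0) (ct j k x0) q.1.1 q.1.2 0 1) (fun x y => box_iff hjk _ _ x y) G]
  exact localize (colSB B r c j k) (fun q : {q : Fin m × Fin m // q.1 < q.2} =>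
    boxSB B r c q.1.1 q.1.2 j k) hts F hloc

/-- **Variance inequality** for the `2 × 2` heat-bath dynamics on mixed tables. -/
theorem variance_boxB (F : OmegaB B r c → ℝ) :
    ∑ x, (F x - avg ⊤ F x) ^ 2 ≤
      ∑ p : {p : Fin n × Fin n // p.1 < p.2}, ∑ q : {q : Fin m × Fin m // q.1 < q.2},
        ∑ x, (F x - avg (boxSB B r c q.1.1 q.1.2 p.1.1 p.1.2) F x) ^ 2 :=
  (cols_ineqB B r c F).trans (Finset.sum_le_sum fun p _ => rows_ineqB B r c p.2.ne F)

end Tables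

end Vale.Agent.P328.H350
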